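import Mathlib

/-!
# P162: basic definitions for the operator approach to the Thorp shuffle
-/

namespace Vale.Agent.P162

open scoped RealInnerProductSpace

noncomputable section

variable {X : Type*} [Fintype X] [DecidableEq X]
variable {V : Type*} [NormedAddCommGroup V] [InnerProductSpace ℝ V]

/-- `ρ` acts by isometries. -/
def Orth (ρ : Equiv.Perm X →* (V →L[ℝ] V)) : Prop :=
  ∀ (g : Equiv.Perm X) (v w : V), ⟪ρ g v, ρ g w⟫ = ⟪v, w⟫

/-- The Laplacian of the interchange process on the complete graph `X`: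
`(1/n) * (sum over unordered pairs of (1 - transposition))`, written with ordered pairs. -/
def lap (ρ : Equiv.Perm X →* (V →L[ℝ] V)) : V →L[ℝ] V :=
  (1 / (2 * (Fintype.card X : ℝ))) • ∑ a : X, ∑ b : X, (1 - ρ (Equiv.swap a b))

/-- The left regular representation of `Perm X`. -/
def reg (X : Type*) [Fintype X] [DecidableEq X] :
    Equiv.Perm X →* (EuclideanSpace ℝ (Equiv.Perm X) →L[ℝ] EuclideanSpace ℝ (Equiv.Perm X)) where
  toFun g := (LinearIsometryEquiv.piLpCongrLeft 2 ℝ ℝ (Equiv.mulLeft g)).toContinuousLinearEquiv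
  map_one' := by
    ext f h
    simp [LinearIsometryEquiv.piLpCongrLeft_apply, Equiv.piCongrLeft']
    rfl
  map_mul' g g' := by
    ext f h
    simp [LinearIsometryEquiv.piLpCongrLeft_apply, Equiv.piCongrLeft']
    rfl

/-- the action of the group algebra -/
def act (ρ : Equiv.Perm X →* (V →L[ℝ] V)) : MonoidAlgebra ℝ (Equiv.Perm X) →ₐ[ℝ] (V →L[ℝ] V) :=
  MonoidAlgebra.lift ℝ (V →L[ℝ] V) (Equiv.Perm X) ρ

/-- the permutation of `Bool × Y` that exchanges `(false, y)` and `(true, y)` whenever `c y` -/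
def flip {Y : Type*} (c : Y → Bool) : Equiv.Perm (Bool × Y) where
  toFun p := (xor (c p.2) p.1, p.2)
  invFun p := (xor (c p.2) p.1, p.2)
  left_inv p := by simp
  right_inv p := by simp

/-- the inclusion of `Perm Y` as permutations of the half `{h} × Y` -/
def half {Y : Type*} [DecidableEq Y] (h : Bool) : Equiv.Perm Y →* Equiv.Perm (Bool × Y) where
  toFun σ :=
    { toFun := fun p => (p.1, if p.1 = h then σ p.2 else p.2)
      invFun := fun p => (p.1, if p.1 = h then σ⁻¹ p.2 else p.2)
      left_inv := fun p => by by_cases hp : p.1 = h <;> simp [hp, Prod.ext_iff]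
      right_inv := fun p => by by_cases hp : p.1 = h <;> simp [hp, Prod.ext_iff] }
  map_one' := by
    ext p <;> simp
  map_mul' σ τ := by
    ext p <;> by_cases hp : p.1 = h <;> simp [hp]

/-- average over all the coins -/
def coinAvg (Y : Type*) [Fintype Y] [DecidableEq Y] : MonoidAlgebra ℝ (Equiv.Perm (Bool × Y)) :=
  ((1 : ℝ) / 2 ^ (Fintype.card Y)) • ∑ c : Y → Bool, MonoidAlgebra.single (flip c) (1 : ℝ)

/-- from a network on `Y` to a network on `Bool × Y`: first the switches `(false,y)`-`(true,y)`,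
then independent copies on both halves. -/
def dbl {Y : Type*} [Fintype Y] [DecidableEq Y] (b : MonoidAlgebra ℝ (Equiv.Perm Y)) :
    MonoidAlgebra ℝ (Equiv.Perm (Bool × Y)) :=
  MonoidAlgebra.mapDomain (half false) b * MonoidAlgebra.mapDomain (half true) b * coinAvg Y

/-- the contraction property with constant `c` -/
def Good {X : Type} [Fintype X] [DecidableEq X] (b : MonoidAlgebra ℝ (Equiv.Perm X)) (c : ℝ) :
    Prop :=
  ∀ (V : Type) [NormedAddCommGroup V] [InnerProductSpace ℝ V] [CompleteSpace V]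
    (ρ : Equiv.Perm X →* (V →L[ℝ] V)), Orth ρ →
    ∀ v : V, ‖act ρ b v‖ ^ 2 ≤ ⟪v, NormedSpace.exp (-(c • lap ρ)) v⟫

/-- splitting off the last coordinate -/
def snocE (e : ℕ) : Bool × (Fin e → Bool) ≃ (Fin (e + 1) → Bool) where
  toFun p := Fin.snoc p.2 p.1
  invFun x := (x (Fin.last e), Fin.init x)
  left_inv p := by simp
  right_inv x := by simp

/-- the butterfly network on the `d`-cube -/
def bfly : (d : ℕ) → MonoidAlgebra ℝ (Equiv.Perm (Fin d → Bool))
  | 0 => 1
  | e + 1 => MonoidAlgebra.mapDomain (snocE e).permCongr (dbl (bfly e))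

end

end Vale.Agent.P162
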