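import Mathlib

/-!
# P162: the adjacency operator of the discrete cube on low degree functions
-/

namespace Vale.Agent.P162

noncomputable section

variable {Y : Type*} [Fintype Y] [DecidableEq Y]

/-- toggling one element -/
def tog (i : Y) (χ : Finset Y) : Finset Y := symmDiff χ {i}

omit [Fintype Y] in
@[simp] lemma tog_tog (i : Y) (χ : Finset Y) : tog i (tog i χ) = χ := by
  simp [tog]

omit [Fintype Y] in
lemma tog_comm (i j : Y) (χ : Finset Y) : tog i (tog j χ) = tog j (tog i χ) := by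
  simp only [tog, symmDiff_assoc]
  rw [symmDiff_comm ({j} : Finset Y) {i}]

omit [Fintype Y] in
lemma mem_tog {i j : Y} {χ : Finset Y} : j ∈ tog i χ ↔ (j ∈ χ ∧ j ≠ i) ∨ (j ∉ χ ∧ j = i) := by
  simp only [tog, Finset.mem_symmDiff, Finset.mem_singleton]
  tauto

omit [Fintype Y] in
@[simp] lemma self_mem_tog {i : Y} {χ : Finset Y} : i ∈ tog i χ ↔ i ∉ χ := by
  rw [mem_tog]; simp

omit [Fintype Y] in
lemma card_tog_of_mem {i : Y} {χ : Finset Y} (h : i ∈ χ) : (tog i χ).card + 1 = χ.card := by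
  have : tog i χ = χ.erase i := by
    ext j; rw [mem_tog, Finset.mem_erase]
    constructor
    · rintro (⟨h1, h2⟩ | ⟨h1, h2⟩)
      · exact ⟨h2, h1⟩
      · subst h2; exact absurd h h1
    · rintro ⟨h1, h2⟩; exact Or.inl ⟨h2, h1⟩
  rw [this, Finset.card_erase_add_one h]

omit [Fintype Y] in
lemma card_tog_of_notMem {i : Y} {χ : Finset Y} (h : i ∉ χ) : (tog i χ).card = χ.card + 1 := by
  have : tog i χ = insert i χ := by
    ext j; rw [mem_tog, Finset.mem_insert]
    constructor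
    · rintro (⟨h1, h2⟩ | ⟨h1, h2⟩)
      · exact Or.inr h1
      · exact Or.inl h2
    · rintro (h1 | h1)
      · subst h1; exact Or.inr ⟨h, rfl⟩
      · by_cases hj : j = i
        · subst hj; exact absurd h1 h
        · exact Or.inl ⟨h1, hj⟩
  rw [this, Finset.card_insert_of_notMem h]

omit [Fintype Y] in
lemma card_le_tog (i : Y) (χ : Finset Y) : χ.card ≤ (tog i χ).card + 1 := by
  by_cases h : i ∈ χ
  · exact (card_tog_of_mem h).ge
  · rw [card_tog_of_notMem h]; omega

/-- toggling as an equivalence -/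
def togE (i : Y) : Finset Y ≃ Finset Y where
  toFun := tog i
  invFun := tog i
  left_inv := tog_tog i
  right_inv := tog_tog i

/-- adjacency operator of the cube -/
def adj (f : Finset Y → ℝ) (χ : Finset Y) : ℝ := ∑ i : Y, f (tog i χ)

lemma adj_mono {f g : Finset Y → ℝ} (h : ∀ χ, f χ ≤ g χ) (χ : Finset Y) : adj f χ ≤ adj g χ :=
  Finset.sum_le_sum fun _ _ => h _

lemma adj_symm (f g : Finset Y → ℝ) : ∑ χ, f χ * adj g χ = ∑ χ, adj f χ * g χ := by
  simp only [adj, Finset.mul_sum, Finset.sum_mul]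
  rw [Finset.sum_comm]
  conv_rhs => rw [Finset.sum_comm]
  refine Finset.sum_congr rfl fun i _ => ?_
  rw [← Equiv.sum_comp (togE i)]
  refine Finset.sum_congr rfl fun χ _ => ?_
  simp [togE]

lemma adj_supp {f : Finset Y → ℝ} {s : ℕ} (hf : ∀ χ, s < χ.card → f χ = 0) :
    ∀ χ, s + 1 < χ.card → adj f χ = 0 := by
  intro χ hχ
  refine Finset.sum_eq_zero fun i _ => hf _ ?_
  have := card_le_tog i χ
  omega

lemma sum_tog_aux (f : Finset Y → ℝ) (p : Y → Finset Y → Prop) [∀ i, DecidablePred (p i)] :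
    ∑ χ : Finset Y, ∑ i ∈ Finset.univ.filter (fun i => p i (tog i χ)), f (tog i χ) =
      ∑ χ : Finset Y, ((Finset.univ.filter (fun i => p i χ)).card : ℝ) * f χ := by
  simp only [Finset.sum_filter]
  rw [Finset.sum_comm]
  have : ∀ i : Y, ∑ χ : Finset Y, (if p i (tog i χ) then f (tog i χ) else 0) =
      ∑ χ : Finset Y, (if p i χ then f χ else 0) := fun i =>
    Equiv.sum_comp (togE i) (fun χ => if p i χ then f χ else 0)
  rw [Finset.sum_congr rfl fun i _ => this i, Finset.sum_comm]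
  refine Finset.sum_congr rfl fun χ _ => ?_
  rw [← Finset.sum_filter, Finset.sum_const, nsmul_eq_mul]

lemma adj_norm {f : Finset Y → ℝ} {s : ℕ} (hf : ∀ χ, s < χ.card → f χ = 0) :
    ∑ χ, (adj f χ) ^ 2 ≤ 4 * (Fintype.card Y : ℝ) * (s + 1) * ∑ χ, (f χ) ^ 2 := by
  classical
  set m : ℝ := (Fintype.card Y : ℝ) with hm
  have hm0 : 0 ≤ m := Nat.cast_nonneg _
  -- pointwise bound
  have hpt : ∀ χ : Finset Y, (adj f χ) ^ 2 ≤
      2 * ((s + 1) * ∑ i ∈ Finset.univ.filter (fun i => i ∉ tog i χ), (f (tog i χ)) ^ 2) +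
      2 * (m * ∑ i ∈ Finset.univ.filter (fun i => i ∈ tog i χ), (f (tog i χ)) ^ 2) := by
    intro χ
    have hsplit : adj f χ = ∑ i ∈ Finset.univ.filter (fun i => i ∉ tog i χ), f (tog i χ) +
        ∑ i ∈ Finset.univ.filter (fun i => i ∈ tog i χ), f (tog i χ) := by
      unfold adj
      rw [add_comm, Finset.sum_filter_add_sum_filter_not]
    set a := ∑ i ∈ Finset.univ.filter (fun i => i ∉ tog i χ), f (tog i χ) with ha
    set b := ∑ i ∈ Finset.univ.filter (fun i => i ∈ tog i χ), f (tog i χ) with hb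
    have h1 : a ^ 2 ≤ (s + 1) * ∑ i ∈ Finset.univ.filter (fun i => i ∉ tog i χ),
        (f (tog i χ)) ^ 2 := by
      by_cases hc : χ.card ≤ s + 1
      · have := @sq_sum_le_card_mul_sum_sq Y ℝ _ _ _ _
          (Finset.univ.filter (fun i => i ∉ tog i χ)) (fun i => f (tog i χ))
        refine this.trans (mul_le_mul_of_nonneg_right ?_ (Finset.sum_nonneg fun i _ => sq_nonneg _))
        have : (Finset.univ.filter (fun i => i ∉ tog i χ)) = χ := by
          ext i; simp
        rw [this]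
        exact_mod_cast hc
      · have : a = 0 := by
          refine Finset.sum_eq_zero fun i _ => hf _ ?_
          have := card_le_tog i χ
          omega
        rw [this]
        have : (0:ℝ) ≤ ∑ i ∈ Finset.univ.filter (fun i => i ∉ tog i χ), (f (tog i χ)) ^ 2 :=
          Finset.sum_nonneg fun i _ => sq_nonneg _
        have hs : (0:ℝ) ≤ (s:ℝ) + 1 := by positivity
        simpa using mul_nonneg hs this
    have h2 : b ^ 2 ≤ m * ∑ i ∈ Finset.univ.filter (fun i => i ∈ tog i χ),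
        (f (tog i χ)) ^ 2 := by
      have := @sq_sum_le_card_mul_sum_sq Y ℝ _ _ _ _
        (Finset.univ.filter (fun i => i ∈ tog i χ)) (fun i => f (tog i χ))
      refine this.trans (mul_le_mul_of_nonneg_right ?_ (Finset.sum_nonneg fun i _ => sq_nonneg _))
      rw [hm]
      exact_mod_cast Finset.card_le_univ _
    rw [hsplit]
    nlinarith [sq_nonneg (a - b)]
  have hA := sum_tog_aux (fun χ => (f χ) ^ 2) (fun (i : Y) (χ : Finset Y) => i ∉ χ)
  have hB := sum_tog_aux (fun χ => (f χ) ^ 2) (fun (i : Y) (χ : Finset Y) => i ∈ χ)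
  have hA' : ∑ χ : Finset Y, ((Finset.univ.filter (fun i => i ∉ χ)).card : ℝ) * (f χ) ^ 2 ≤
      m * ∑ χ, (f χ) ^ 2 := by
    rw [Finset.mul_sum]
    refine Finset.sum_le_sum fun χ _ => mul_le_mul_of_nonneg_right ?_ (sq_nonneg _)
    rw [hm]; exact_mod_cast Finset.card_le_univ _
  have hB' : ∑ χ : Finset Y, ((Finset.univ.filter (fun i => i ∈ χ)).card : ℝ) * (f χ) ^ 2 ≤
      s * ∑ χ, (f χ) ^ 2 := by
    rw [Finset.mul_sum]
    refine Finset.sum_le_sum fun χ _ => ?_
    by_cases hc : s < χ.card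
    · simp [hf χ hc]
    · refine mul_le_mul_of_nonneg_right ?_ (sq_nonneg _)
      have : (Finset.univ.filter (fun i => i ∈ χ)) = χ := by ext i; simp
      rw [this]; exact_mod_cast not_lt.mp hc
  calc ∑ χ, (adj f χ) ^ 2 ≤ ∑ χ : Finset Y,
      (2 * ((s + 1) * ∑ i ∈ Finset.univ.filter (fun i => i ∉ tog i χ), (f (tog i χ)) ^ 2) +
      2 * (m * ∑ i ∈ Finset.univ.filter (fun i => i ∈ tog i χ), (f (tog i χ)) ^ 2)) :=
        Finset.sum_le_sum fun χ _ => hpt χ
    _ = 2 * (s + 1) * ∑ χ : Finset Y, ((Finset.univ.filter (fun i => i ∉ χ)).card : ℝ) * (f χ) ^ 2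
        + 2 * m * ∑ χ : Finset Y, ((Finset.univ.filter (fun i => i ∈ χ)).card : ℝ) * (f χ) ^ 2 := by
        rw [← hA, ← hB, Finset.sum_add_distrib, Finset.mul_sum, Finset.mul_sum]
        congr 1 <;> refine Finset.sum_congr rfl fun χ _ => by ring
    _ ≤ 2 * (s + 1) * (m * ∑ χ, (f χ) ^ 2) + 2 * m * (s * ∑ χ, (f χ) ^ 2) := by
        have hs : (0:ℝ) ≤ 2 * ((s:ℝ) + 1) := by positivity
        have hm2 : (0:ℝ) ≤ 2 * m := by positivity
        exact add_le_add (mul_le_mul_of_nonneg_left hA' hs) (mul_le_mul_of_nonneg_left hB' hm2)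
    _ ≤ 4 * m * (s + 1) * ∑ χ, (f χ) ^ 2 := by
        have hF : 0 ≤ ∑ χ, (f χ) ^ 2 := Finset.sum_nonneg fun χ _ => sq_nonneg _
        nlinarith [mul_nonneg hm0 hF]

lemma adj_iter_supp {f : Finset Y → ℝ} {s : ℕ} (hf : ∀ χ, s < χ.card → f χ = 0) (p : ℕ) :
    ∀ χ, s + p < χ.card → (adj^[p] f) χ = 0 := by
  induction p with
  | zero => simpa using hf
  | succ p ih =>
    rw [Function.iterate_succ_apply']
    intro χ hχ
    exact adj_supp ih χ (by omega)

lemma adj_iter_norm {f : Finset Y → ℝ} (hf : ∀ χ, 2 < χ.card → f χ = 0) (p : ℕ) :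
    ∑ χ, ((adj^[p] f) χ) ^ 2 ≤
      (4 * (Fintype.card Y : ℝ)) ^ p * ((p + 2).factorial / 2) * ∑ χ, (f χ) ^ 2 := by
  induction p with
  | zero => simp [Nat.factorial]
  | succ p ih =>
    rw [Function.iterate_succ_apply']
    have h1 := adj_norm (adj_iter_supp hf p)
    have hm0 : (0:ℝ) ≤ (Fintype.card Y : ℝ) := Nat.cast_nonneg _
    have hq : (0:ℝ) ≤ 4 * (Fintype.card Y : ℝ) * (((2 + p : ℕ) : ℝ) + 1) := by positivity
    refine h1.trans ((mul_le_mul_of_nonneg_left ih hq).trans (le_of_eq ?_))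
    have hfac : ((p + 1 + 2).factorial : ℝ) = ((p : ℝ) + 3) * ((p + 2).factorial : ℝ) := by
      rw [show p + 1 + 2 = (p + 2) + 1 by ring, Nat.factorial_succ]
      push_cast
      ring
    rw [hfac, pow_succ]
    push_cast
    ring

end

end Vale.Agent.P162
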