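import Mathlib

/-!
# P162: the Thorp shuffle (definitions used in the statement)
-/

namespace Vale.Agent.P162

noncomputable section

/-- `IsThorp m c g`: on a deck of `2 * m` cards (positions `0, ..., 2 m - 1`), `g` is the
permutation of positions performed by one Thorp shuffle with coins `c`: for every `i < m` the
cards in positions `i` and `m + i` are placed in positions `2 i` and `2 i + 1`, the card from
position `i` going to `2 i + 1` exactly when the coin `c i` is `true`. -/
def IsThorp (m : ℕ) (c : Fin m → Bool) (g : Equiv.Perm (Fin (2 * m))) : Prop :=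
  ∀ i : Fin m,
    (g ⟨i.1, by have := i.2; omega⟩).1 = 2 * i.1 + (if c i = true then 1 else 0) ∧
    (g ⟨m + i.1, by have := i.2; omega⟩).1 = 2 * i.1 + (if c i = true then 0 else 1)

/-- The law `q_n`, `n = 2 m`, of one Thorp shuffle: `m` independent fair coins. -/
def thorpLaw (m : ℕ) (g : Equiv.Perm (Fin (2 * m))) : ℝ :=
  (Nat.card {c : Fin m → Bool // IsThorp m c g} : ℝ) / 2 ^ m

/-- Convolution of two functions on a finite group. -/
def conv {G : Type*} [Group G] [Fintype G] (μ ν : G → ℝ) (g : G) : ℝ :=
  ∑ h : G, μ h * ν (h⁻¹ * g)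

/-- The `t`-fold convolution power, the `0`-th power being the point mass at the identity. -/
def convPow {G : Type*} [Group G] [Fintype G] [DecidableEq G] (μ : G → ℝ) : ℕ → G → ℝ
  | 0 => fun g => if g = 1 then 1 else 0
  | t + 1 => conv μ (convPow μ t)

/-- Total variation distance from the uniform law. -/
def tvUnif {G : Type*} [Fintype G] (μ : G → ℝ) : ℝ :=
  (1 / 2) * ∑ g : G, |μ g - 1 / (Fintype.card G : ℝ)|

/-- The mixing time of the Thorp shuffle of a deck of `2 * m` cards. -/
def tmix (m : ℕ) : ℕ := sInf {t : ℕ | tvUnif (convPow (thorpLaw m) t) ≤ 1 / 4}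

end

end Vale.Agent.P162
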