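import Vale.Agent.Lib.P162.Norm

/-!
# P162: exponentials of operators and the exponential moment bound
-/

namespace Vale.Agent.P162

open scoped RealInnerProductSpace

noncomputable section

section general

variable {V : Type*} [NormedAddCommGroup V] [InnerProductSpace ℝ V] [CompleteSpace V]

lemma exp_add' {T S : V →L[ℝ] V} (h : Commute T S) :
    NormedSpace.exp (T + S) = NormedSpace.exp T * NormedSpace.exp S := by
  let _ : NormedAlgebra ℚ (V →L[ℝ] V) := NormedAlgebra.restrictScalars ℚ ℝ _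
  exact NormedSpace.exp_add_of_commute h

lemma exp_half (T : V →L[ℝ] V) :
    NormedSpace.exp T = NormedSpace.exp ((1 / 2 : ℝ) • T) * NormedSpace.exp ((1 / 2 : ℝ) • T) := by
  rw [← exp_add' (Commute.refl _), ← add_smul]
  norm_num

lemma exp_symm {T : V →L[ℝ] V} (hT : ∀ v w : V, ⟪T v, w⟫ = ⟪v, T w⟫) (v w : V) :
    ⟪NormedSpace.exp T v, w⟫ = ⟪v, NormedSpace.exp T w⟫ := by
  have h1 : IsSelfAdjoint T := by
    rw [ContinuousLinearMap.isSelfAdjoint_iff_isSymmetric]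
    intro x y; exact hT x y
  have h2 := h1.exp
  rw [ContinuousLinearMap.isSelfAdjoint_iff_isSymmetric] at h2
  exact h2 v w

/-- `⟪v, exp T v⟫ = ‖exp (T/2) v‖²`. -/
lemma inner_exp_eq {T : V →L[ℝ] V} (hT : ∀ v w : V, ⟪T v, w⟫ = ⟪v, T w⟫) (v : V) :
    ⟪v, NormedSpace.exp T v⟫ = ‖NormedSpace.exp ((1 / 2 : ℝ) • T) v‖ ^ 2 := by
  have hT' : ∀ v w : V, ⟪((1 / 2 : ℝ) • T) v, w⟫ = ⟪v, ((1 / 2 : ℝ) • T) w⟫ := by
    intro v w
    simp only [_root_.smul_apply, real_inner_smul_left, real_inner_smul_right, hT]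
  rw [exp_half, mul_apply_eq_comp, ← exp_symm hT', real_inner_self_eq_norm_sq]

lemma hasSum_inner_exp (T : V →L[ℝ] V) (c : ℝ) (u : V) :
    HasSum (fun n : ℕ => ((n.factorial : ℝ)⁻¹ * c ^ n) * ⟪u, (T ^ n) u⟫)
      ⟪u, NormedSpace.exp (c • T) u⟫ := by
  have hs := NormedSpace.exp_series_hasSum_exp' (𝕂 := ℝ) (c • T)
  have h2 := ((innerSL ℝ u) ∘L (ContinuousLinearMap.apply ℝ V u)).hasSum hs
  simp only [ContinuousLinearMap.comp_apply, innerSL_apply_apply,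
    ContinuousLinearMap.apply_apply] at h2
  have e : (fun n : ℕ => ((n.factorial : ℝ)⁻¹ * c ^ n) * ⟪u, (T ^ n) u⟫) =
      fun b : ℕ => ⟪u, ((b.factorial : ℝ)⁻¹ • (c • T) ^ b) u⟫ := by
    funext n
    rw [smul_pow, _root_.smul_apply, _root_.smul_apply, real_inner_smul_right,
      real_inner_smul_right]
    ring
  rw [e]
  exact h2

omit [CompleteSpace V] in
lemma pow_symm {T : V →L[ℝ] V} (hT : ∀ v w : V, ⟪T v, w⟫ = ⟪v, T w⟫) (n : ℕ) (v w : V) :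
    ⟪(T ^ n) v, w⟫ = ⟪v, (T ^ n) w⟫ := by
  induction n generalizing v w with
  | zero => simp
  | succ n ih =>
    calc ⟪(T ^ (n + 1)) v, w⟫ = ⟪(T ^ n) (T v), w⟫ := by rw [pow_succ, mul_apply_eq_comp]
      _ = ⟪T v, (T ^ n) w⟫ := ih _ _
      _ = ⟪v, T ((T ^ n) w)⟫ := hT _ _
      _ = ⟪v, (T ^ (n + 1)) w⟫ := by rw [pow_succ', mul_apply_eq_comp]

omit [CompleteSpace V] in
lemma inner_pow_nonneg {T : V →L[ℝ] V} (hT : ∀ v w : V, ⟪T v, w⟫ = ⟪v, T w⟫)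
    (hp : ∀ v : V, 0 ≤ ⟪v, T v⟫) (n : ℕ) (v : V) : 0 ≤ ⟪v, (T ^ n) v⟫ := by
  rcases Nat.even_or_odd' n with ⟨q, hq | hq⟩
  · rw [hq, two_mul, pow_add, mul_apply_eq_comp, ← pow_symm hT, real_inner_self_eq_norm_sq]
    positivity
  · have : T ^ n = T ^ q * (T * T ^ q) := by
      rw [hq, ← pow_succ', ← pow_add]; congr 1; ring
    rw [this, mul_apply_eq_comp, ← pow_symm hT, mul_apply_eq_comp]
    exact hp _

/-- `1 + κ T ≤ exp (κ T)` in the Loewner order. -/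
lemma one_add_le_exp {T : V →L[ℝ] V} (hT : ∀ v w : V, ⟪T v, w⟫ = ⟪v, T w⟫)
    (hp : ∀ v : V, 0 ≤ ⟪v, T v⟫) {κ : ℝ} (hκ : 0 ≤ κ) (u : V) :
    ‖u‖ ^ 2 + κ * ⟪u, T u⟫ ≤ ⟪u, NormedSpace.exp (κ • T) u⟫ := by
  have h := hasSum_inner_exp T κ u
  have h2 := sum_le_hasSum (Finset.range 2) (fun n _ => ?_) h
  · simpa [Finset.sum_range_succ, real_inner_self_eq_norm_sq] using h2
  · exact mul_nonneg (by positivity) (inner_pow_nonneg hT hp n u)

end general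

variable {Y : Type*} [Fintype Y] [DecidableEq Y]
variable {V : Type*} [NormedAddCommGroup V] [InnerProductSpace ℝ V]

section symm

variable {X : Type*} [Fintype X] [DecidableEq X] {σ : Equiv.Perm X →* (V →L[ℝ] V)}

omit [Fintype X] in
lemma swap_symm (hσ : Orth σ) (a b : X) (v w : V) :
    ⟪σ (Equiv.swap a b) v, w⟫ = ⟪v, σ (Equiv.swap a b) w⟫ := by
  rw [orth_adj hσ, Equiv.swap_inv]

lemma lap_symm (hσ : Orth σ) (v w : V) : ⟪lap σ v, w⟫ = ⟪v, lap σ w⟫ := by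
  simp only [lap, _root_.smul_apply, _root_.sum_apply, real_inner_smul_left,
    real_inner_smul_right, sum_inner, inner_sum, _root_.sub_apply, one_apply_eq_self,
    inner_sub_left, inner_sub_right, swap_symm hσ]

/-- the Laplacian is central -/
lemma lap_comm (σ : Equiv.Perm X →* (V →L[ℝ] V)) (g : Equiv.Perm X) :
    Commute (lap σ) (σ g) := by
  unfold lap
  refine Commute.smul_left ?_ _
  show (∑ a : X, ∑ b : X, (1 - σ (Equiv.swap a b))) * σ g =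
    σ g * ∑ a : X, ∑ b : X, (1 - σ (Equiv.swap a b))
  rw [Finset.sum_mul, Finset.mul_sum]
  rw [← Equiv.sum_comp g]
  refine Finset.sum_congr rfl fun a _ => ?_
  rw [Finset.sum_mul, Finset.mul_sum, ← Equiv.sum_comp g]
  refine Finset.sum_congr rfl fun b _ => ?_
  rw [sub_mul, mul_sub, one_mul, mul_one, ← map_mul, ← map_mul, Equiv.mul_swap_eq_swap_mul]

end symm

variable {ρ : Equiv.Perm (Bool × Y) →* (V →L[ℝ] V)}

omit [Fintype Y] in
lemma Yop_inner (hρ : Orth ρ) (i j : Y) (v w : V) : ⟪Yop ρ i j v, w⟫ = ⟪v, Yop ρ i j w⟫ := by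
  simp only [Yop, _root_.add_apply, _root_.sub_apply, inner_add_left, inner_sub_left,
    inner_add_right, inner_sub_right, swap_symm hρ]

lemma Gop_symm (hρ : Orth ρ) (v w : V) : ⟪Gop ρ v, w⟫ = ⟪v, Gop ρ w⟫ := by
  simp only [Gop, _root_.smul_apply, _root_.sum_apply, real_inner_smul_left,
    real_inner_smul_right, sum_inner, inner_sum, Yop_inner hρ]

/-- The exponential moment bound. -/
lemma exp_Gop_le [CompleteSpace V] (hρ : Orth ρ) {u : V}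
    (hu : ∀ c : Y → Bool, ρ (flip c) u = u) {c : ℝ} (hc : 0 ≤ c) (hc' : c ≤ 1 / 8) :
    ⟪u, NormedSpace.exp (c • Gop ρ) u⟫ ≤
      ‖u‖ ^ 2 + (4 * c ^ 2 / (Fintype.card Y : ℝ)) * ⟪u, lap ρ u⟫ := by
  have h := hasSum_inner_exp (Gop ρ) c u
  set y := Gop ρ u with hy
  have hsupp : ∀ χ : Finset Y, 2 < χ.card → cmp ρ χ y = 0 := cmp_Gop_supp hρ hu
  have h2 := (hasSum_nat_add_iff' 2).mpr h
  have hgeo : HasSum (fun k : ℕ => (c ^ 2 / 2 * ‖y‖ ^ 2) * (4 * c) ^ k)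
      ((c ^ 2 / 2 * ‖y‖ ^ 2) * (1 - 4 * c)⁻¹) :=
    (hasSum_geometric_of_lt_one (by linarith) (by linarith)).mul_left _
  have hle : ∀ k : ℕ, (((k + 2).factorial : ℝ)⁻¹ * c ^ (k + 2)) * ⟪u, (Gop ρ ^ (k + 2)) u⟫ ≤
      (c ^ 2 / 2 * ‖y‖ ^ 2) * (4 * c) ^ k := by
    intro k
    have e1 : ⟪u, (Gop ρ ^ (k + 2)) u⟫ = ⟪y, (Gop ρ ^ k) y⟫ := by
      have : Gop ρ ^ (k + 2) = Gop ρ * (Gop ρ ^ k * Gop ρ) := by
        rw [← pow_succ, ← pow_succ']
      rw [this, mul_apply_eq_comp, ← Gop_symm hρ, mul_apply_eq_comp]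
    rw [e1]
    have e2 := (le_abs_self _).trans (abs_inner_le hρ hsupp k)
    have hf : (0:ℝ) < ((k + 2).factorial : ℝ) := by positivity
    have hpos : (0:ℝ) ≤ ((k + 2).factorial : ℝ)⁻¹ * c ^ (k + 2) := by positivity
    refine (mul_le_mul_of_nonneg_left e2 hpos).trans (le_of_eq ?_)
    field_simp
    ring
  have h3 := hasSum_le hle h2 hgeo
  simp only [Finset.sum_range_succ, Finset.sum_range_zero, pow_zero, pow_one, Nat.factorial_zero,
    Nat.factorial_one, Nat.cast_one, inv_one, one_mul, zero_add, one_apply_eq_self] at h3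
  rw [← hy, inner_Gop_self hρ hu, real_inner_self_eq_norm_sq, mul_zero, add_zero] at h3
  have h4 : (1 - 4 * c)⁻¹ ≤ 2 := by
    rw [inv_le_comm₀ (by linarith) (by norm_num)]; linarith
  have h5 : (c ^ 2 / 2 * ‖y‖ ^ 2) * (1 - 4 * c)⁻¹ ≤ (c ^ 2 / 2 * ‖y‖ ^ 2) * 2 :=
    mul_le_mul_of_nonneg_left h4 (by positivity)
  have h6 := norm_Gop_sq_le hρ hu
  have h7 : c ^ 2 * ‖y‖ ^ 2 ≤ c ^ 2 * (4 / (Fintype.card Y : ℝ) * ⟪u, lap ρ u⟫) :=
    mul_le_mul_of_nonneg_left h6 (by positivity)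
  have h8 : c ^ 2 * (4 / (Fintype.card Y : ℝ) * ⟪u, lap ρ u⟫) =
    (4 * c ^ 2 / (Fintype.card Y : ℝ)) * ⟪u, lap ρ u⟫ := by ring
  linarith

end

end Vale.Agent.P162
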