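import Vale.Agent.Lib.P162.Level

/-!
# P162: the trace of the heat kernel of random transpositions
-/

namespace Vale.Agent.P162

open scoped RealInnerProductSpace

noncomputable section

theorem reg_orth (X : Type) [Fintype X] [DecidableEq X] : Orth (reg X) := by
  intro g v w
  exact LinearIsometryEquiv.inner_map_map
    (LinearIsometryEquiv.piLpCongrLeft 2 ℝ ℝ (Equiv.mulLeft g)) v w

variable {X : Type} [Fintype X] [DecidableEq X]

lemma reg_apply (g : Equiv.Perm X) (v : EuclideanSpace ℝ (Equiv.Perm X)) (h : Equiv.Perm X) :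
    reg X g v h = v (g⁻¹ * h) := by
  rfl

/-- the basic functions of `k` labelled cards -/
def cardF (k : ℕ) (p : (Fin k → X) × (Fin k → X)) : EuclideanSpace ℝ (Equiv.Perm X) :=
  WithLp.toLp 2 (fun h => if (fun l => h⁻¹ (p.1 l)) = p.2 then (1:ℝ) else 0)

/-- their span -/
def cardW (X : Type) [Fintype X] [DecidableEq X] (k : ℕ) :
    Submodule ℝ (EuclideanSpace ℝ (Equiv.Perm X)) :=
  Submodule.span ℝ (Set.range (cardF (X := X) k))

lemma finrank_cardW (k : ℕ) : Module.finrank ℝ (cardW X k) ≤ (Fintype.card X) ^ (2 * k) := by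
  refine (finrank_range_le_card (R := ℝ) (cardF (X := X) k)).trans ?_
  rw [Fintype.card_prod, Fintype.card_fun, Fintype.card_fin, ← pow_add, two_mul]

lemma sum_smul_apply' {ι κ : Type*} [Fintype ι] [Fintype κ] (c : ι → ℝ)
    (F : ι → EuclideanSpace ℝ κ) (h : κ) : (∑ y, c y • F y) h = ∑ y, c y * F y h := by
  simp [WithLp.ofLp_sum]

lemma mem_cardW [Nonempty X] (k : ℕ) (B : Finset X) (hB : Fintype.card X ≤ B.card + k)
    (v : EuclideanSpace ℝ (Equiv.Perm X)) (hv : v ∈ fixB (reg X) B) : v ∈ cardW X k := by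
  -- enumerate the complement
  have hcard : (Bᶜ).card ≤ k := by
    rw [Finset.card_compl]; omega
  obtain ⟨x, hx⟩ : ∃ x : Fin k → X, ∀ z, z ∉ B → ∃ l, x l = z := by
    classical
    set e := (Bᶜ).equivFin with he
    refine ⟨fun l => if h : l.1 < (Bᶜ).card then (e.symm ⟨l.1, h⟩ : X) else Classical.arbitrary X,
      ?_⟩
    intro z hz
    have hz' : z ∈ Bᶜ := by simpa using hz
    refine ⟨⟨(e ⟨z, hz'⟩).1, lt_of_lt_of_le (e ⟨z, hz'⟩).2 hcard⟩, ?_⟩
    simp
  have hinv : ∀ h h' : Equiv.Perm X, (∀ l, h⁻¹ (x l) = h'⁻¹ (x l)) → v h = v h' := by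
    intro h h' hh
    have h1 := hv (h' * h⁻¹) ?_
    · have h2 : (reg X (h' * h⁻¹) v) h' = v h' := by rw [h1]
      rw [reg_apply] at h2
      have e : (h' * h⁻¹)⁻¹ * h' = h := by group
      rw [← h2, e]
    · intro z hz
      obtain ⟨l, hl⟩ := hx z hz
      rw [Equiv.Perm.mul_apply, ← hl, hh l]
      simp
  classical
  have hsum : v = ∑ y : Fin k → X,
      (if h : ∃ g : Equiv.Perm X, (fun l => g⁻¹ (x l)) = y then v h.choose else 0) •
        cardF k (x, y) := by
    ext h
    rw [sum_smul_apply']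
    rw [Finset.sum_eq_single (fun l => h⁻¹ (x l))]
    · have hex : ∃ g : Equiv.Perm X, (fun l => g⁻¹ (x l)) = (fun l => h⁻¹ (x l)) := ⟨h, rfl⟩
      rw [dif_pos hex]
      have h1 := hex.choose_spec
      have h2 : (cardF k (x, fun l => h⁻¹ (x l))) h = 1 := by simp [cardF]
      rw [h2, mul_one]
      exact hinv _ _ fun l => (congrFun h1 l).symm
    · intro y _ hy
      have h2 : (cardF k (x, y)) h = 0 := by
        simp only [cardF]
        rw [if_neg (Ne.symm hy)]
      rw [h2, mul_zero]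
    · intro h; exact absurd (Finset.mem_univ _) h
  rw [hsum]
  exact Submodule.sum_mem _ fun y _ => Submodule.smul_mem _ _ (Submodule.subset_span ⟨_, rfl⟩)

lemma level_of_orth [Nonempty X] (k : ℕ) (w : EuclideanSpace ℝ (Equiv.Perm X))
    (hw : w ∈ (cardW X k)ᗮ) : LevelGE (reg X) Finset.univ (k + 1) w := by
  intro B _ hB v hv
  rw [Finset.card_univ] at hB
  exact (Submodule.mem_orthogonal _ _).mp hw v (mem_cardW k B (by omega) v hv)

/-- the Laplacian as a linear map -/
abbrev lapL (X : Type) [Fintype X] [DecidableEq X] :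
    EuclideanSpace ℝ (Equiv.Perm X) →ₗ[ℝ] EuclideanSpace ℝ (Equiv.Perm X) :=
  (lap (reg X) : EuclideanSpace ℝ (Equiv.Perm X) →L[ℝ] EuclideanSpace ℝ (Equiv.Perm X))

lemma lapL_symm (X : Type) [Fintype X] [DecidableEq X] : (lapL X).IsSymmetric :=
  fun v w => lap_symm (reg_orth X) v w

/-- counting the small eigenvalues -/
lemma count_eig [Nonempty X] (k : ℕ) :
    (Finset.univ.filter
      (fun i => (lapL_symm X).eigenvalues rfl i < ((k:ℝ) + 1) / 4)).card ≤
      (Fintype.card X) ^ (2 * k) := by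
  set b := (lapL_symm X).eigenvectorBasis rfl with hb
  set μ := (lapL_symm X).eigenvalues rfl with hμ
  set S := Finset.univ.filter (fun i => μ i < ((k:ℝ) + 1) / 4) with hS
  set E : Submodule ℝ (EuclideanSpace ℝ (Equiv.Perm X)) :=
    Submodule.span ℝ (Set.range (fun i : S => b i)) with hE
  have hEdim : Module.finrank ℝ E = S.card := by
    have hli : LinearIndependent ℝ (fun i : S => b i) :=
      b.orthonormal.linearIndependent.comp _ Subtype.val_injective
    rw [hE, finrank_span_eq_card hli, Fintype.card_coe]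
  have hdisj : Disjoint E (cardW X k)ᗮ := by
    rw [Submodule.disjoint_def]
    intro w hwE hwW
    have hlev := lap_level (reg_orth X) (k + 1) w (level_of_orth k w hwW)
    -- coordinates outside `S` vanish
    have hco : ∀ i, i ∉ S → ⟪b i, w⟫ = 0 := by
      intro i hi
      have : w ∈ (Submodule.span ℝ {b i})ᗮ := by
        have hle : E ≤ (Submodule.span ℝ {b i})ᗮ := by
          rw [hE, Submodule.span_le]
          rintro _ ⟨j, rfl⟩
          simp only [SetLike.mem_coe, Submodule.mem_orthogonal_singleton_iff_inner_right]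
          refine b.orthonormal.2 ?_
          rintro rfl
          exact hi j.2
        exact hle hwE
      rwa [Submodule.mem_orthogonal_singleton_iff_inner_right] at this
    have h1 : ⟪w, lap (reg X) w⟫ = ∑ i, μ i * ⟪b i, w⟫ ^ 2 := by
      rw [← b.sum_inner_mul_inner]
      refine Finset.sum_congr rfl fun i _ => ?_
      have h3 : ⟪b i, lap (reg X) w⟫ = μ i * ⟪b i, w⟫ := by
        rw [← lap_symm (reg_orth X)]
        have h4 : lap (reg X) (b i) = μ i • b i := (lapL_symm X).apply_eigenvectorBasis rfl i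
        rw [h4, real_inner_smul_left]
      rw [h3, real_inner_comm]; ring
    have h2 : ‖w‖ ^ 2 = ∑ i, ⟪b i, w⟫ ^ 2 := by
      rw [← real_inner_self_eq_norm_sq, ← b.sum_inner_mul_inner]
      refine Finset.sum_congr rfl fun i _ => ?_
      rw [real_inner_comm]; ring
    rw [h1, h2, Finset.mul_sum] at hlev
    have h3 : ∀ i, μ i * ⟪b i, w⟫ ^ 2 ≤ ((k + 1 : ℕ) : ℝ) / 4 * ⟪b i, w⟫ ^ 2 := by
      intro i
      by_cases hi : i ∈ S
      · rw [hS, Finset.mem_filter] at hi
        refine mul_le_mul_of_nonneg_right ?_ (sq_nonneg _)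
        push_cast
        exact hi.2.le
      · rw [hco i hi]; simp
    have h4 : ∀ i ∈ Finset.univ, ((k + 1 : ℕ) : ℝ) / 4 * ⟪b i, w⟫ ^ 2 - μ i * ⟪b i, w⟫ ^ 2 = 0 := by
      have h5 : ∑ i, (((k + 1 : ℕ) : ℝ) / 4 * ⟪b i, w⟫ ^ 2 - μ i * ⟪b i, w⟫ ^ 2) = 0 := by
        rw [Finset.sum_sub_distrib]
        refine le_antisymm (by linarith) ?_
        rw [← Finset.sum_sub_distrib]
        exact Finset.sum_nonneg fun i _ => sub_nonneg.mpr (h3 i)
      exact (Finset.sum_eq_zero_iff_of_nonneg fun i _ => sub_nonneg.mpr (h3 i)).mp h5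
    have h6 : ∀ i, ⟪b i, w⟫ = 0 := by
      intro i
      by_cases hi : i ∈ S
      · have h7 := h4 i (Finset.mem_univ i)
        rw [hS, Finset.mem_filter] at hi
        have h8 : ((k + 1 : ℕ) : ℝ) / 4 - μ i ≠ 0 := by
          push_cast
          linarith [hi.2]
        rw [← sub_mul] at h7
        rcases mul_eq_zero.mp h7 with h | h
        · exact absurd h h8
        · exact pow_eq_zero_iff (two_ne_zero) |>.mp h
      · exact hco i hi
    have h7 : ‖w‖ ^ 2 = 0 := by
      rw [h2]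
      exact Finset.sum_eq_zero fun i _ => by rw [h6 i]; simp
    exact norm_eq_zero.mp (pow_eq_zero_iff two_ne_zero |>.mp h7)
  have h1 := Submodule.finrank_add_finrank_le_of_disjoint hdisj
  have h2 := Submodule.finrank_add_finrank_orthogonal (cardW X k)
  have h3 := finrank_cardW (X := X) k
  omega

lemma inner_exp_eig {V : Type*} [NormedAddCommGroup V] [InnerProductSpace ℝ V] [CompleteSpace V]
    (T : V →L[ℝ] V) (c μ : ℝ) (u : V) (hu : T u = μ • u) (hn : ‖u‖ = 1) :
    ⟪u, NormedSpace.exp (c • T) u⟫ = Real.exp (c * μ) := by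
  have h := hasSum_inner_exp T c u
  have hpow : ∀ n : ℕ, (T ^ n) u = μ ^ n • u := by
    intro n
    induction n with
    | zero => simp
    | succ n ih => rw [pow_succ, mul_apply_eq_comp, hu, map_smul, ih, smul_smul]; ring_nf
  have h2 : HasSum (fun n : ℕ => ((n.factorial : ℝ)⁻¹ * c ^ n) * ⟪u, (T ^ n) u⟫)
      (Real.exp (c * μ)) := by
    have h3 := NormedSpace.expSeries_div_hasSum_exp (𝔸 := ℝ) (c * μ)
    rw [← Real.exp_eq_exp_ℝ] at h3
    have e : (fun n : ℕ => ((n.factorial : ℝ)⁻¹ * c ^ n) * ⟪u, (T ^ n) u⟫) =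
        fun n : ℕ => (c * μ) ^ n / (n.factorial : ℝ) := by
      funext n
      rw [hpow, real_inner_smul_right, real_inner_self_eq_norm_sq, hn, mul_pow]
      field_simp
    rw [e]
    exact h3
  exact h.unique h2

lemma reg_single (g : Equiv.Perm X) :
    reg X g (EuclideanSpace.single (1 : Equiv.Perm X) (1:ℝ)) = EuclideanSpace.single g (1:ℝ) := by
  ext h
  rw [reg_apply]
  simp only [PiLp.single_apply]
  congr 1
  rw [eq_iff_iff, inv_mul_eq_one, eq_comm]

theorem heat_trace_eq (X : Type) [Fintype X] [DecidableEq X] (t : ℝ) :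
    ((Fintype.card X).factorial : ℝ) * ⟪(EuclideanSpace.single (1 : Equiv.Perm X) (1:ℝ) :
      EuclideanSpace ℝ (Equiv.Perm X)), NormedSpace.exp (-(t • lap (reg X)))
        (EuclideanSpace.single (1 : Equiv.Perm X) (1:ℝ))⟫ =
      ∑ i, Real.exp (-t * (lapL_symm X).eigenvalues rfl i) := by
  set T := NormedSpace.exp (-(t • lap (reg X))) with hT
  have hcomm : ∀ g : Equiv.Perm X, Commute T (reg X g) := by
    intro g
    have h1 : Commute (-(t • lap (reg X))) (reg X g) :=
      ((lap_comm (reg X) g).smul_left t).neg_left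
    exact Commute.exp_left h1
  have h1 : ∀ g : Equiv.Perm X, ⟪(EuclideanSpace.single g (1:ℝ) :
      EuclideanSpace ℝ (Equiv.Perm X)), T (EuclideanSpace.single g (1:ℝ))⟫ =
      ⟪(EuclideanSpace.single (1 : Equiv.Perm X) (1:ℝ) :
      EuclideanSpace ℝ (Equiv.Perm X)), T (EuclideanSpace.single (1 : Equiv.Perm X) (1:ℝ))⟫ := by
    intro g
    rw [← reg_single g]
    have h2 : T (reg X g (EuclideanSpace.single (1 : Equiv.Perm X) (1:ℝ))) =
        reg X g (T (EuclideanSpace.single (1 : Equiv.Perm X) (1:ℝ))) := by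
      rw [← mul_apply_eq_comp, (hcomm g).eq, mul_apply_eq_comp]
    rw [h2, reg_orth X]
  have h2 : ((Fintype.card X).factorial : ℝ) * ⟪(EuclideanSpace.single (1 : Equiv.Perm X) (1:ℝ) :
      EuclideanSpace ℝ (Equiv.Perm X)), T (EuclideanSpace.single (1 : Equiv.Perm X) (1:ℝ))⟫ =
      ∑ g : Equiv.Perm X, ⟪(EuclideanSpace.single g (1:ℝ) :
      EuclideanSpace ℝ (Equiv.Perm X)), T (EuclideanSpace.single g (1:ℝ))⟫ := by
    rw [Finset.sum_congr rfl fun g _ => h1 g, Finset.sum_const, Finset.card_univ,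
      Fintype.card_perm, nsmul_eq_mul]
  rw [h2]
  have h3 := LinearMap.trace_eq_sum_inner (T : EuclideanSpace ℝ (Equiv.Perm X) →ₗ[ℝ] _)
    (EuclideanSpace.basisFun (Equiv.Perm X) ℝ)
  have h4 := LinearMap.trace_eq_sum_inner (T : EuclideanSpace ℝ (Equiv.Perm X) →ₗ[ℝ] _)
    ((lapL_symm X).eigenvectorBasis rfl)
  rw [h3] at h4
  simp only [EuclideanSpace.basisFun_apply, ContinuousLinearMap.coe_coe] at h4
  rw [h4]
  refine Finset.sum_congr rfl fun i _ => ?_
  rw [hT, ← neg_smul]
  exact inner_exp_eig _ _ _ _ ((lapL_symm X).apply_eigenvectorBasis rfl i)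
    (((lapL_symm X).eigenvectorBasis rfl).orthonormal.1 i)

theorem heat_trace (X : Type) [Fintype X] [DecidableEq X] [Nonempty X] (t : ℝ)
    (ht : (Fintype.card X : ℝ)^2 * Real.exp (-t/4) ≤ 1/2) :
    ((Fintype.card X).factorial : ℝ) * ⟪(EuclideanSpace.single (1 : Equiv.Perm X) (1:ℝ) :
      EuclideanSpace ℝ (Equiv.Perm X)), NormedSpace.exp (-(t • lap (reg X)))
        (EuclideanSpace.single (1 : Equiv.Perm X) (1:ℝ))⟫ ≤
      1 + 2*(Fintype.card X : ℝ)^2 * Real.exp (-t/4) := by
  rw [heat_trace_eq]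
  set μ := (lapL_symm X).eigenvalues rfl with hμ
  set n := Fintype.card X with hn
  set q := (n:ℝ) ^ 2 * Real.exp (-t/4) with hq
  have hn1 : (1:ℝ) ≤ (n:ℝ) := by exact_mod_cast Fintype.card_pos
  have ht0 : 0 ≤ t := by
    by_contra hneg
    push Not at hneg
    have h1 : 1 < Real.exp (-t/4) := by
      rw [Real.one_lt_exp_iff]; linarith
    nlinarith
  have hμ0 : ∀ i, 0 ≤ μ i := by
    intro i
    have h1 := inner_lap_nonneg (reg_orth X) ((lapL_symm X).eigenvectorBasis rfl i)
    have h2 : lap (reg X) ((lapL_symm X).eigenvectorBasis rfl i) =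
      μ i • (lapL_symm X).eigenvectorBasis rfl i := (lapL_symm X).apply_eigenvectorBasis rfl i
    rw [h2, real_inner_smul_right, real_inner_self_eq_norm_sq,
      ((lapL_symm X).eigenvectorBasis rfl).orthonormal.1 i] at h1
    simpa using h1
  have hq0 : 0 ≤ q := by positivity
  have hstep : ∀ i, Real.exp (-t * μ i) ≤ Real.exp (-t/4) ^ ⌊4 * μ i⌋₊ := by
    intro i
    rw [← Real.exp_nat_mul, Real.exp_le_exp]
    have h1 : (⌊4 * μ i⌋₊ : ℝ) ≤ 4 * μ i := Nat.floor_le (by linarith [hμ0 i])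
    nlinarith
  obtain ⟨K, hK⟩ : ∃ K : ℕ, ∀ i, ⌊4 * μ i⌋₊ < K := by
    refine ⟨(Finset.univ.sup fun i => ⌊4 * μ i⌋₊) + 1, fun i => ?_⟩
    exact Nat.lt_succ_of_le (Finset.le_sup (f := fun i => ⌊4 * μ i⌋₊) (Finset.mem_univ i))
  calc ∑ i, Real.exp (-t * μ i) ≤ ∑ i, Real.exp (-t/4) ^ ⌊4 * μ i⌋₊ :=
        Finset.sum_le_sum fun i _ => hstep i
    _ = ∑ k ∈ Finset.range K, ∑ i ∈ Finset.univ.filter (fun i => ⌊4 * μ i⌋₊ = k),
          Real.exp (-t/4) ^ ⌊4 * μ i⌋₊ := by
        rw [Finset.sum_fiberwise_of_maps_to]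
        intro i _
        exact Finset.mem_range.mpr (hK i)
    _ ≤ ∑ k ∈ Finset.range K, q ^ k := by
        refine Finset.sum_le_sum fun k _ => ?_
        have h1 : ∑ i ∈ Finset.univ.filter (fun i => ⌊4 * μ i⌋₊ = k),
            Real.exp (-t/4) ^ ⌊4 * μ i⌋₊ =
            (Finset.univ.filter (fun i => ⌊4 * μ i⌋₊ = k)).card * Real.exp (-t/4) ^ k := by
          rw [← nsmul_eq_mul, ← Finset.sum_const]
          refine Finset.sum_congr rfl fun i hi => ?_
          rw [(Finset.mem_filter.mp hi).2]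
        rw [h1, hq, mul_pow, ← pow_mul]
        refine mul_le_mul_of_nonneg_right ?_ (by positivity)
        have h2 : (Finset.univ.filter (fun i => ⌊4 * μ i⌋₊ = k)).card ≤ n ^ (2 * k) := by
          refine le_trans (Finset.card_le_card ?_) (count_eig (X := X) k)
          intro i hi
          rw [Finset.mem_filter] at hi ⊢
          refine ⟨hi.1, ?_⟩
          have h3 := Nat.lt_floor_add_one (4 * μ i)
          rw [hi.2] at h3
          show μ i < _
          linarith
        exact_mod_cast h2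
    _ ≤ (1 - q)⁻¹ := by
        have hq1 : q < 1 := by linarith
        have h1 := (hasSum_geometric_of_lt_one hq0 hq1)
        exact sum_le_hasSum _ (fun k _ => by positivity) h1
    _ ≤ 1 + 2 * q := by
        rw [inv_le_iff_one_le_mul₀ (by linarith)]
        nlinarith
    _ = 1 + 2 * (n:ℝ) ^ 2 * Real.exp (-t/4) := by rw [hq]; ring

end

end Vale.Agent.P162
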