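import Vale.Agent.Lib.P162.Basic
import Vale.Agent.Lib.P162.Defs

/-!
# P162: a pass of `e + 1` Thorp shuffles of a deck of `2 ^ (e + 1)` cards is the butterfly network
-/

namespace Vale.Agent.P162

open MonoidAlgebra

noncomputable section

/-- one Thorp shuffle as an element of the group algebra -/
def thorpElt (m : ℕ) : MonoidAlgebra ℝ (Equiv.Perm (Fin (2 * m))) :=
  ∑ g, MonoidAlgebra.single g (thorpLaw m g)

namespace Pass

/-- flip the coordinate `j` of the vertices of the cube chosen by `c` -/
def flp {d : ℕ} (j : Fin d) (c : (Fin d → Bool) → Bool) : Equiv.Perm (Fin d → Bool) where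
  toFun x := if c (Function.update x j false) then Function.update x j (!x j) else x
  invFun x := if c (Function.update x j false) then Function.update x j (!x j) else x
  left_inv x := by
    by_cases h : c (Function.update x j false) = true <;> simp [h]
  right_inv x := by
    by_cases h : c (Function.update x j false) = true <;> simp [h]

/-- the average over all coins of `flp` -/
def K (d : ℕ) (j : Fin d) : MonoidAlgebra ℝ (Equiv.Perm (Fin d → Bool)) :=
  ((1 : ℝ) / 2 ^ (2 ^ d)) • ∑ c : (Fin d → Bool) → Bool, single (flp j c) (1 : ℝ)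

/-- pairs of coin functions on the two halves -/
def coinE (e : ℕ) : (((Fin e → Bool) → Bool) × ((Fin e → Bool) → Bool)) ≃
    ((Fin (e + 1) → Bool) → Bool) where
  toFun p x := if x (Fin.last e) then p.2 (Fin.init x) else p.1 (Fin.init x)
  invFun c := (fun y => c (Fin.snoc y false), fun y => c (Fin.snoc y true))
  left_inv p := by ext y <;> simp
  right_inv c := by
    ext x
    by_cases h : x (Fin.last e) = true
    · have : Fin.snoc (Fin.init x) true = x := by rw [← h]; exact Fin.snoc_init_self x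
      simp [h, this]
    · have h' : x (Fin.last e) = false := by simpa using h
      have : Fin.snoc (Fin.init x) false = x := by rw [← h']; exact Fin.snoc_init_self x
      simp [h', this]

abbrev sn (e : ℕ) : Equiv.Perm (Bool × (Fin e → Bool)) →* Equiv.Perm (Fin (e + 1) → Bool) :=
  (snocE e).permCongrHom.toMonoidHom

theorem sn_apply (e : ℕ) (g : Equiv.Perm (Bool × (Fin e → Bool))) (y : Fin e → Bool) (h : Bool) :
    sn e g (Fin.snoc y h) = Fin.snoc (g (h, y)).2 (g (h, y)).1 := by
  simp [snocE, Equiv.permCongrHom]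

theorem upd_last {e : ℕ} (y : Fin e → Bool) (h z : Bool) :
    Function.update (Fin.snoc y h : Fin (e + 1) → Bool) (Fin.last e) z = Fin.snoc y z :=
  Fin.update_snoc_last (α := fun _ => Bool) h y z

theorem upd_castSucc {e : ℕ} (j : Fin e) (y : Fin e → Bool) (h z : Bool) :
    Function.update (Fin.snoc y h : Fin (e + 1) → Bool) j.castSucc z =
      Fin.snoc (Function.update y j z) h :=
  (Fin.snoc_update (α := fun _ => Bool) h y j z).symm

theorem flp_apply {d : ℕ} (j : Fin d) (c : (Fin d → Bool) → Bool) (x : Fin d → Bool) :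
    flp j c x = if c (Function.update x j false) then Function.update x j (!x j) else x := rfl

theorem flp_snoc_last (e : ℕ) (c : (Fin (e + 1) → Bool) → Bool) (y : Fin e → Bool) (h : Bool) :
    flp (Fin.last e) c (Fin.snoc y h) = Fin.snoc y (xor (c (Fin.snoc y false)) h) := by
  rw [flp_apply, upd_last, upd_last, Fin.snoc_last]
  cases c (Fin.snoc y false) <;> simp

theorem flp_snoc_castSucc (e : ℕ) (j : Fin e) (c : (Fin (e + 1) → Bool) → Bool) (y : Fin e → Bool)
    (h : Bool) :
    flp j.castSucc c (Fin.snoc y h) = Fin.snoc (flp j (fun z => c (Fin.snoc z h)) y) h := by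
  rw [flp_apply, flp_apply, upd_castSucc, upd_castSucc, Fin.snoc_castSucc]
  cases c (Fin.snoc (Function.update y j false) h) <;> simp

theorem perm_ext {e : ℕ} {g g' : Equiv.Perm (Fin (e + 1) → Bool)}
    (h : ∀ (y : Fin e → Bool) (b : Bool), g (Fin.snoc y b) = g' (Fin.snoc y b)) : g = g' := by
  ext1 x
  rw [← Fin.snoc_init_self x]
  exact h _ _

theorem sn_flip (e : ℕ) (c₀ c₁ : (Fin e → Bool) → Bool) :
    sn e (flip c₀) = flp (Fin.last e) (coinE e (c₀, c₁)) := by
  refine perm_ext fun y b => ?_
  rw [sn_apply, flp_snoc_last]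
  simp [flip, coinE]

theorem sn_half (e : ℕ) (j : Fin e) (c₀ c₁ : (Fin e → Bool) → Bool) :
    sn e (half false (flp j c₀)) * sn e (half true (flp j c₁)) =
      flp j.castSucc (coinE e (c₀, c₁)) := by
  rw [← map_mul]
  refine perm_ext fun y b => ?_
  rw [sn_apply, flp_snoc_castSucc]
  cases b <;> simp [half, coinE]

theorem mapDomain_sn (e : ℕ) (b : MonoidAlgebra ℝ (Equiv.Perm (Bool × (Fin e → Bool)))) :
    mapDomain (snocE e).permCongr b = mapDomainAlgHom ℝ ℝ (sn e) b := rfl

theorem K_last (e : ℕ) :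
    mapDomain (snocE e).permCongr (coinAvg (Fin e → Bool)) = K (e + 1) (Fin.last e) := by
  rw [mapDomain_sn, coinAvg, map_smul, map_sum, K, ← (coinE e).sum_comp, Fintype.sum_prod_type]
  have h1 : ∀ c : (Fin e → Bool) → Bool,
      mapDomainAlgHom ℝ ℝ (sn e) (single (flip c) (1 : ℝ)) = single (sn e (flip c)) 1 := fun c =>
    mapDomain_single
  simp only [h1]
  have h2 : ∀ c₀ : (Fin e → Bool) → Bool, ∑ c₁ : (Fin e → Bool) → Bool,
      single (flp (Fin.last e) (coinE e (c₀, c₁))) (1 : ℝ) =
      ((2 : ℝ) ^ (2 ^ e)) • single (sn e (flip c₀)) (1 : ℝ) := by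
    intro c₀
    rw [Finset.sum_congr rfl fun c₁ _ => by rw [← sn_flip e c₀ c₁]]
    simp [Finset.sum_const]
  simp only [h2, ← Finset.smul_sum, smul_smul]
  congr 1
  simp only [Fintype.card_fun, Fintype.card_bool, Fintype.card_fin]
  rw [pow_succ 2 e, pow_mul]
  field_simp

theorem K_castSucc (e : ℕ) (j : Fin e) :
    mapDomainAlgHom ℝ ℝ (sn e) (mapDomainAlgHom ℝ ℝ (half false) (K e j)) *
      mapDomainAlgHom ℝ ℝ (sn e) (mapDomainAlgHom ℝ ℝ (half true) (K e j)) =
      K (e + 1) j.castSucc := by
  rw [K, K, ← (coinE e).sum_comp, Fintype.sum_prod_type]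
  simp only [map_smul, map_sum]
  have h1 : ∀ (b : Bool) (c : (Fin e → Bool) → Bool),
      mapDomainAlgHom ℝ ℝ (sn e) (mapDomainAlgHom ℝ ℝ (half b) (single (flp j c) (1 : ℝ))) =
        single (sn e (half b (flp j c))) 1 := fun b c => by
    change mapDomain _ (mapDomain _ _) = _
    rw [mapDomain_single, mapDomain_single]
  simp only [h1]
  rw [smul_mul_smul_comm, Finset.sum_mul_sum]
  simp only [single_mul_single, mul_one, sn_half]
  congr 1
  rw [pow_succ 2 e, pow_mul]
  field_simp

theorem half_comm {Y : Type*} [DecidableEq Y] (σ τ : Equiv.Perm Y) :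
    half true σ * half false τ = half false τ * half true σ := by
  ext ⟨b, y⟩ <;> cases b <;> simp [half]

theorem half_comm' {Y : Type*} [DecidableEq Y] (a b : MonoidAlgebra ℝ (Equiv.Perm Y)) :
    Commute (mapDomainAlgHom ℝ ℝ (half true) a) (mapDomainAlgHom ℝ ℝ (half false) b) := by
  induction a using MonoidAlgebra.induction_linear with
  | zero => rw [map_zero]; exact Commute.zero_left _
  | add x y hx hy => rw [map_add]; exact hx.add_left hy
  | single g r =>
    induction b using MonoidAlgebra.induction_linear with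
    | zero => rw [map_zero]; exact Commute.zero_right _
    | add x y hx hy => rw [map_add]; exact hx.add_right hy
    | single h s =>
      change mapDomain _ _ * mapDomain _ _ = mapDomain _ _ * mapDomain _ _
      simp only [mapDomain_single, single_mul_single]
      rw [half_comm, mul_comm r s]

theorem prod_pair {A B : Type*} [Monoid A] [Monoid B] (F T : A →* B)
    (h : ∀ a b, Commute (T a) (F b)) (l : List A) :
    F l.prod * T l.prod = (l.map fun a => F a * T a).prod := by
  induction l with
  | nil => simp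
  | cons a l ih =>
    rw [List.prod_cons, map_mul, map_mul, List.map_cons, List.prod_cons, ← ih]
    have := (h a l.prod).eq
    calc F a * F l.prod * (T a * T l.prod) = F a * (F l.prod * T a) * T l.prod := by
          simp only [mul_assoc]
      _ = _ := by rw [← this]; simp only [mul_assoc]

theorem bfly_eq (d : ℕ) : bfly d = (List.ofFn (K d)).prod := by
  induction d with
  | zero => simp [bfly]
  | succ e ih =>
    rw [bfly, dbl, mapDomain_sn, map_mul, ← mapDomain_sn, ← mapDomain_sn, K_last, List.ofFn_succ',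
      List.concat_eq_append, List.prod_append, List.prod_singleton, mapDomain_sn]
    congr 1
    rw [ih]
    have key := prod_pair
      ((mapDomainAlgHom ℝ ℝ (sn e)).comp (mapDomainAlgHom ℝ ℝ (half false))).toMonoidHom
      ((mapDomainAlgHom ℝ ℝ (sn e)).comp (mapDomainAlgHom ℝ ℝ (half true))).toMonoidHom
      (fun a b => (half_comm' a b).map (mapDomainAlgHom ℝ ℝ (sn e))) (List.ofFn (K e))
    have h1 : mapDomainAlgHom ℝ ℝ (sn e) (mapDomain (half false) (List.ofFn (K e)).prod *
      mapDomain (half true) (List.ofFn (K e)).prod) = _ := (map_mul _ _ _).trans key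
    rw [h1, List.map_ofFn]
    congr 2
    ext j : 1
    exact K_castSucc e j

/-- the rotation of the coordinates -/
def rot (e : ℕ) : Equiv.Perm (Fin (e + 1) → Bool) :=
  (finRotate (e + 1)).arrowCongr (Equiv.refl Bool)

theorem rot_snoc (e : ℕ) (y : Fin e → Bool) (h : Bool) :
    rot e (Fin.snoc y h) = Fin.cons h y := by
  rw [Fin.snoc_eq_cons_rotate]
  ext i
  simp [rot, Equiv.arrowCongr]

theorem rot_conj (e : ℕ) (j : Fin (e + 1)) (c : (Fin (e + 1) → Bool) → Bool) :
    rot e * flp j c = flp (finRotate (e + 1) j) (c ∘ (rot e).symm) * rot e := by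
  have h1 : ∀ (x : Fin (e + 1) → Bool) (b : Bool), rot e (Function.update x j b) =
      Function.update (rot e x) (finRotate (e + 1) j) b := by
    intro x b
    ext i
    simp only [rot, Equiv.arrowCongr_apply, Function.comp, Equiv.refl_apply]
    by_cases h : i = finRotate (e + 1) j
    · subst h; simp
    · have h' : (finRotate (e + 1)).symm i ≠ j := fun hh => h (by rw [← hh]; simp)
      rw [Function.update_of_ne h, Function.update_of_ne h']
      rfl
  have h2 : ∀ x : Fin (e + 1) → Bool, rot e x (finRotate (e + 1) j) = x j := by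
    intro x
    simp [rot, Equiv.arrowCongr]
  ext1 x
  simp only [Equiv.Perm.mul_apply, flp_apply, Function.comp, ← h1, Equiv.symm_apply_apply, h2]
  split_ifs <;> rfl

theorem rot_K (e : ℕ) (j : Fin (e + 1)) :
    single (rot e) (1 : ℝ) * K (e + 1) j = K (e + 1) (finRotate (e + 1) j) * single (rot e) 1 := by
  rw [K, K, mul_smul_comm, smul_mul_assoc, Finset.mul_sum, Finset.sum_mul]
  congr 1
  simp only [single_mul_single, mul_one, rot_conj]
  exact ((rot e).arrowCongr (Equiv.refl Bool)).sum_comp
    (fun c => single (flp (finRotate (e + 1) j) c * rot e) (1 : ℝ))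

theorem rot_pow_K (e k i : ℕ) (h : i + k < e + 1) :
    single (rot e ^ k) (1 : ℝ) * K (e + 1) ⟨i, by omega⟩ =
      K (e + 1) ⟨i + k, h⟩ * single (rot e ^ k) 1 := by
  induction k generalizing i with
  | zero => simp [← one_def]
  | succ k ih =>
    have h1 := rot_K e ⟨i, by omega⟩
    rw [finRotate_of_lt (by omega)] at h1
    have h2 := ih (i + 1) (by omega)
    have h3 : single (rot e ^ (k + 1)) (1 : ℝ) = single (rot e ^ k) 1 * single (rot e) 1 := by
      rw [single_mul_single, mul_one, pow_succ]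
    rw [h3, mul_assoc, h1, ← mul_assoc, h2, mul_assoc]
    congr 3
    omega

/-- the product `L (n - 1) * ... * L 0` -/
def rprod {A : Type*} [Monoid A] (L : ℕ → A) : ℕ → A
  | 0 => 1
  | n + 1 => L n * rprod L n

theorem rprod_eq {A : Type*} [Monoid A] (L : ℕ → A) (n : ℕ) :
    rprod L n = (List.ofFn fun j : Fin n => L (n - 1 - j)).prod := by
  induction n with
  | zero => simp [rprod]
  | succ n ih =>
    rw [rprod, List.ofFn_succ, List.prod_cons, ih]
    congr 1
    congr 2
    ext j : 1
    congr 1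
    simp
    omega

theorem pow_pass (e : ℕ) (k : ℕ) (hk : k ≤ e + 1) :
    (single (rot e) (1 : ℝ) * K (e + 1) (Fin.last e)) ^ k =
      single (rot e ^ k) 1 * rprod (fun i => K (e + 1) ⟨e - i, by omega⟩) k := by
  induction k with
  | zero => simp [rprod, ← one_def]
  | succ k ih =>
    rw [pow_succ', ih (by omega), rprod]
    have h1 := rot_pow_K e k (e - k) (by omega)
    have h2 : (⟨e - k + k, by omega⟩ : Fin (e + 1)) = Fin.last e := Fin.ext (by simp; omega)
    rw [h2] at h1
    have h3 : single (rot e ^ (k + 1)) (1 : ℝ) = single (rot e) 1 * single (rot e ^ k) 1 := by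
      rw [single_mul_single, mul_one, pow_succ']
    rw [h3, mul_assoc, mul_assoc]
    congr 1
    rw [← mul_assoc, ← h1, mul_assoc]

theorem pow_pass_last (e : ℕ) :
    (single (rot e) (1 : ℝ) * K (e + 1) (Fin.last e)) ^ (e + 1) =
      single (rot e ^ (e + 1)) 1 * bfly (e + 1) := by
  rw [pow_pass e (e + 1) le_rfl, rprod_eq, bfly_eq]
  congr 3
  ext j : 1
  congr 1
  exact Fin.ext (by have := j.2; simp; omega)

/-- binary expansion -/
def bin : (d : ℕ) → (Fin d → Bool) ≃ Fin (2 ^ d) := fun d =>
  ((Equiv.refl (Fin d)).arrowCongr finTwoEquiv.symm).trans finFunctionFinEquiv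

theorem bin_val (d : ℕ) (x : Fin d → Bool) :
    (bin d x : ℕ) = ∑ i : Fin d, (if x i then 1 else 0) * 2 ^ (i : ℕ) := by
  simp only [bin, Equiv.trans_apply, finFunctionFinEquiv_apply_val, Equiv.arrowCongr_apply,
    Equiv.refl_symm, Function.comp, Equiv.refl_apply]
  refine Finset.sum_congr rfl fun i _ => ?_
  cases x i
  · rfl
  · rfl

/-- positions of a deck of `2 * 2 ^ e` cards -/
def psi (e : ℕ) : (Fin (e + 1) → Bool) ≃ Fin (2 * 2 ^ e) :=
  (bin (e + 1)).trans (finCongr (by rw [pow_succ, mul_comm]))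

theorem psi_snoc (e : ℕ) (y : Fin e → Bool) (h : Bool) :
    (psi e (Fin.snoc y h) : ℕ) = bin e y + (if h then 1 else 0) * 2 ^ e := by
  simp [psi, bin_val, Fin.sum_univ_castSucc]

theorem psi_cons (e : ℕ) (y : Fin e → Bool) (h : Bool) :
    (psi e (Fin.cons h y) : ℕ) = 2 * bin e y + (if h then 1 else 0) := by
  rw [psi, Equiv.trans_apply, finCongr_apply, Fin.val_cast, bin_val, bin_val, Fin.sum_univ_succ,
    Finset.mul_sum, add_comm]
  congr 1
  · refine Finset.sum_congr rfl fun i _ => ?_
    rw [Fin.cons_succ, Fin.val_succ, pow_succ]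
    ring
  · rw [Fin.cons_zero, Fin.val_zero, pow_zero, mul_one]

/-- the permutation performed by one Thorp shuffle -/
def th (e : ℕ) (c : (Fin e → Bool) → Bool) : Equiv.Perm (Fin (2 * 2 ^ e)) :=
  (psi e).permCongrHom (rot e * sn e (flip c))

theorem th_psi (e : ℕ) (c : (Fin e → Bool) → Bool) (y : Fin e → Bool) (h : Bool) :
    th e c (psi e (Fin.snoc y h)) = psi e (Fin.cons (xor (c y) h) y) := by
  have : th e c (psi e (Fin.snoc y h)) =
      psi e (rot e (sn e (flip c) ((psi e).symm (psi e (Fin.snoc y h))))) := rfl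
  rw [this, Equiv.symm_apply_apply, sn_apply, rot_snoc]
  rfl

theorem isThorp_th (e : ℕ) (c : Fin (2 ^ e) → Bool) : IsThorp (2 ^ e) c (th e (c ∘ bin e)) := by
  intro i
  have h0 : (⟨i.1, by have := i.2; omega⟩ : Fin (2 * 2 ^ e)) =
      psi e (Fin.snoc ((bin e).symm i) false) := by
    apply Fin.ext; rw [psi_snoc]; simp
  have h1 : (⟨2 ^ e + i.1, by have := i.2; omega⟩ : Fin (2 * 2 ^ e)) =
      psi e (Fin.snoc ((bin e).symm i) true) := by
    apply Fin.ext; rw [psi_snoc]; simp [add_comm]
  rw [h0, h1, th_psi, th_psi, psi_cons, psi_cons]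
  simp only [Function.comp, Equiv.apply_symm_apply, Bool.xor_false, Bool.xor_true]
  cases c i <;> simp

theorem isThorp_unique {m : ℕ} {c : Fin m → Bool} {g g' : Equiv.Perm (Fin (2 * m))}
    (h : IsThorp m c g) (h' : IsThorp m c g') : g = g' := by
  ext x
  rcases lt_or_ge x.1 m with hx | hx
  · exact (h ⟨x.1, hx⟩).1.trans (h' ⟨x.1, hx⟩).1.symm
  · have hx2 : x.1 - m < m := by have := x.2; omega
    have e1 : x = ⟨m + (⟨x.1 - m, hx2⟩ : Fin m).1, by have := x.2; simp; omega⟩ :=
      Fin.ext (by simp; omega)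
    rw [e1]
    exact (h ⟨x.1 - m, hx2⟩).2.trans (h' ⟨x.1 - m, hx2⟩).2.symm

theorem isThorp_iff (e : ℕ) (c : Fin (2 ^ e) → Bool) (g : Equiv.Perm (Fin (2 * 2 ^ e))) :
    IsThorp (2 ^ e) c g ↔ g = th e (c ∘ bin e) :=
  ⟨fun h => isThorp_unique h (isThorp_th e c), fun h => h ▸ isThorp_th e c⟩

theorem thorpElt_eq (e : ℕ) : thorpElt (2 ^ e) =
    mapDomain (psi e).permCongr (single (rot e) (1 : ℝ) * K (e + 1) (Fin.last e)) := by
  classical
  have h1 : thorpElt (2 ^ e) = ((1 : ℝ) / 2 ^ (2 ^ e)) •
      ∑ c : Fin (2 ^ e) → Bool, single (th e (c ∘ bin e)) (1 : ℝ) := by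
    rw [thorpElt, Finset.smul_sum]
    have h2 : ∀ g : Equiv.Perm (Fin (2 * 2 ^ e)), single g (thorpLaw (2 ^ e) g) =
        ∑ c : Fin (2 ^ e) → Bool, if g = th e (c ∘ bin e) then
          single g ((1 : ℝ) / 2 ^ (2 ^ e)) else 0 := by
      intro g
      rw [← Finset.sum_filter, Finset.sum_const, smul_single, thorpLaw]
      congr 1
      rw [Nat.card_eq_fintype_card, Fintype.card_subtype, nsmul_eq_mul, mul_one_div]
      congr 3
      ext c
      simp only [Finset.mem_filter, isThorp_iff]
    rw [Finset.sum_congr rfl fun g _ => h2 g, Finset.sum_comm]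
    refine Finset.sum_congr rfl fun c _ => ?_
    rw [Finset.sum_ite_eq' Finset.univ]
    simp
  rw [h1, ← K_last, mapDomain_sn]
  change _ = mapDomainAlgHom ℝ ℝ ((psi e).permCongrHom.toMonoidHom) _
  rw [coinAvg, map_mul, map_smul, map_smul, mul_smul_comm, Fintype.card_fun, Fintype.card_bool,
    Fintype.card_fin, map_sum, map_sum, Finset.mul_sum]
  congr 1
  rw [← ((bin e).arrowCongr (Equiv.refl Bool)).sum_comp]
  refine Finset.sum_congr rfl fun c _ => ?_
  change _ = mapDomain _ _ * mapDomain _ (mapDomain _ _)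
  rw [mapDomain_single, mapDomain_single, mapDomain_single, single_mul_single, mul_one]
  congr 1
  have : (((bin e).arrowCongr (Equiv.refl Bool)) c) ∘ (bin e) = c := by
    ext y; simp [Equiv.arrowCongr]
  rw [this]
  exact map_mul (psi e).permCongrHom _ _

end Pass

open Pass in
/-- `e + 1` Thorp shuffles of `2 ^ (e + 1)` cards are the butterfly network, up to a permutation -/
theorem thorp_pass (e : ℕ) : ∃ (ψ : (Fin (e+1) → Bool) ≃ Fin (2*2^e))
    (R : Equiv.Perm (Fin (2*2^e))),
    (thorpElt (2^e))^(e+1) =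
      MonoidAlgebra.single R 1 * MonoidAlgebra.mapDomain ψ.permCongr (bfly (e+1)) := by
  refine ⟨psi e, (psi e).permCongr (rot e ^ (e + 1)), ?_⟩
  rw [thorpElt_eq]
  have h : ∀ a, mapDomain (psi e).permCongr a =
      mapDomainAlgHom ℝ ℝ ((psi e).permCongrHom.toMonoidHom) a := fun a => rfl
  rw [h, h, ← map_pow, pow_pass_last, map_mul, ← h, mapDomain_single]

end

end Vale.Agent.P162
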