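import Vale.Agent.Lib.P162.Iterate
import Vale.Agent.Lib.P162.HeatTrace
import Vale.Agent.Lib.P162.ThorpPass

/-!
# P162: the mixing time of the Thorp shuffle is `O((log n) ^ 2)` for `n = 2 ^ d`
-/

namespace Vale.Agent.P162

open scoped RealInnerProductSpace

noncomputable section

/-- the operator of one Thorp shuffle on the functions on the symmetric group -/
def thorpOp (m : ℕ) : EuclideanSpace ℝ (Equiv.Perm (Fin (2 * m))) →L[ℝ]
    EuclideanSpace ℝ (Equiv.Perm (Fin (2 * m))) :=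
  act (reg (Fin (2 * m))) (thorpElt m)

lemma thorpOp_eq (m : ℕ) : thorpOp m = ∑ g, thorpLaw m g • reg (Fin (2 * m)) g := by
  simp [thorpOp, thorpElt, act, MonoidAlgebra.lift_single]

lemma thorpOp_apply (m : ℕ) (f : EuclideanSpace ℝ (Equiv.Perm (Fin (2 * m))))
    (h : Equiv.Perm (Fin (2 * m))) : thorpOp m f h = conv (thorpLaw m) f h := by
  rw [thorpOp_eq, _root_.sum_apply]
  simp only [_root_.smul_apply, conv]
  rw [sum_smul_apply']
  rfl

lemma thorpOp_pow (m t : ℕ) :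
    ((thorpOp m) ^ t) (EuclideanSpace.single (1 : Equiv.Perm (Fin (2 * m))) (1:ℝ)) =
      WithLp.toLp 2 (convPow (thorpLaw m) t) := by
  induction t with
  | zero =>
    ext h
    simp [convPow, PiLp.single_apply]
  | succ t ih =>
    rw [pow_succ', mul_apply_eq_comp, ih]
    ext h
    rw [thorpOp_apply]
    rfl

lemma thorpLaw_nonneg (m : ℕ) (g : Equiv.Perm (Fin (2 * m))) : 0 ≤ thorpLaw m g := by
  unfold thorpLaw
  positivity

lemma thorpLaw_sum (e : ℕ) : ∑ g, thorpLaw (2 ^ e) g = 1 := by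
  classical
  have h1 : ∀ g : Equiv.Perm (Fin (2 * 2 ^ e)), thorpLaw (2 ^ e) g =
      ∑ c : Fin (2 ^ e) → Bool, if g = Pass.th e (c ∘ Pass.bin e) then
        ((1 : ℝ) / 2 ^ (2 ^ e)) else 0 := by
    intro g
    rw [← Finset.sum_filter, Finset.sum_const, thorpLaw, Nat.card_eq_fintype_card,
      Fintype.card_subtype, nsmul_eq_mul, mul_one_div]
    congr 3
    ext c
    simp only [Finset.mem_filter, Pass.isThorp_iff]
  rw [Finset.sum_congr rfl fun g _ => h1 g, Finset.sum_comm]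
  rw [Finset.sum_congr rfl (g := fun _ => (1:ℝ) / 2 ^ (2 ^ e))]
  · rw [Finset.sum_const, Finset.card_univ, Fintype.card_fun, Fintype.card_bool, Fintype.card_fin,
      nsmul_eq_mul]
    push_cast
    field_simp
  · intro c _
    rw [Finset.sum_ite_eq' Finset.univ]
    simp

lemma thorpOp_norm_le (e : ℕ) (v : EuclideanSpace ℝ (Equiv.Perm (Fin (2 * 2 ^ e)))) :
    ‖thorpOp (2 ^ e) v‖ ≤ ‖v‖ := by
  rw [thorpOp_eq, _root_.sum_apply]
  refine (norm_sum_le _ _).trans ?_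
  have h : ∀ g ∈ Finset.univ, ‖(thorpLaw (2 ^ e) g • reg (Fin (2 * 2 ^ e)) g) v‖ =
      thorpLaw (2 ^ e) g * ‖v‖ := by
    intro g _
    rw [_root_.smul_apply, norm_smul, orth_norm (reg_orth _), Real.norm_of_nonneg
      (thorpLaw_nonneg _ _)]
  rw [Finset.sum_congr rfl h, ← Finset.sum_mul, thorpLaw_sum, one_mul]

lemma thorpOp_pow_norm_le (e k : ℕ) (v : EuclideanSpace ℝ (Equiv.Perm (Fin (2 * 2 ^ e)))) :
    ‖((thorpOp (2 ^ e)) ^ k) v‖ ≤ ‖v‖ := by
  induction k with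
  | zero => simp
  | succ k ih =>
    rw [pow_succ', mul_apply_eq_comp]
    exact (thorpOp_norm_le e _).trans ih

/-- one pass contracts like the heat kernel of random transpositions at time `1 / 32` -/
lemma pass_norm_le (e : ℕ) (v : EuclideanSpace ℝ (Equiv.Perm (Fin (2 * 2 ^ e)))) :
    ‖((thorpOp (2 ^ e)) ^ (e + 1)) v‖ ^ 2 ≤
      ⟪v, NormedSpace.exp (-((1 / 32 : ℝ) • lap (reg (Fin (2 * 2 ^ e))))) v⟫ := by
  obtain ⟨ψ, R, h⟩ := thorp_pass e
  have h1 : (thorpOp (2 ^ e)) ^ (e + 1) = reg (Fin (2 * 2 ^ e)) R *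
      act (reg (Fin (2 * 2 ^ e))) (MonoidAlgebra.mapDomain ψ.permCongr (bfly (e+1))) := by
    rw [thorpOp, ← map_pow, h, map_mul]
    congr 1
    simp [act]
  rw [h1, mul_apply_eq_comp, orth_norm (reg_orth _)]
  exact good_map ψ (bfly (e + 1)) (1 / 32) (good_bfly (e + 1)) _ _ (reg_orth _) v

/-- powers of the heat operator -/
lemma exp_pow_smul {V : Type*} [NormedAddCommGroup V] [InnerProductSpace ℝ V] [CompleteSpace V]
    (T : V →L[ℝ] V) (r : ℝ) (J : ℕ) :
    NormedSpace.exp (r • T) ^ J = NormedSpace.exp (((J : ℝ) * r) • T) := by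
  induction J with
  | zero => simp
  | succ J ih =>
    rw [pow_succ, ih, ← exp_add']
    · congr 1
      rw [← add_smul]
      congr 1
      push_cast
      ring
    · exact ((Commute.refl T).smul_left _).smul_right _

lemma passes_norm_le (e J : ℕ) (v : EuclideanSpace ℝ (Equiv.Perm (Fin (2 * 2 ^ e)))) :
    ‖((thorpOp (2 ^ e)) ^ ((e + 1) * J)) v‖ ^ 2 ≤
      ⟪v, NormedSpace.exp (-(((J : ℝ) / 32) • lap (reg (Fin (2 * 2 ^ e))))) v⟫ := by
  set L := lap (reg (Fin (2 * 2 ^ e))) with hL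
  have hLs : ∀ v w, ⟪L v, w⟫ = ⟪v, L w⟫ := lap_symm (reg_orth _)
  have hsm : ∀ (r : ℝ), ∀ v w, ⟪(r • L) v, w⟫ = ⟪v, (r • L) w⟫ := by
    intro r v w
    simp only [_root_.smul_apply, real_inner_smul_left, real_inner_smul_right, hLs]
  set F := NormedSpace.exp ((-(1 / 64) : ℝ) • L) with hF
  set P := (thorpOp (2 ^ e)) ^ (e + 1) with hP
  have hPF : Commute F P := by
    rw [hP]
    refine Commute.pow_right ?_ _
    unfold thorpOp
    refine commute_act _ F (fun g => ?_) _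
    exact Commute.exp_left ((lap_comm _ _).smul_left _)
  have h1 : ∀ w, ‖P w‖ ≤ ‖F w‖ := by
    intro w
    have h2 := pass_norm_le e w
    rw [← neg_smul, inner_exp_eq (hsm _), smul_smul] at h2
    have h3 : (1 / 2 : ℝ) * -(1 / 32) = -(1 / 64) := by norm_num
    rw [h3] at h2
    exact (sq_le_sq₀ (norm_nonneg _) (norm_nonneg _)).mp h2
  have h2 : ∀ (J : ℕ) w, ‖(P ^ J) w‖ ≤ ‖(F ^ J) w‖ := by
    intro J
    induction J with
    | zero => intro w; simp
    | succ J ih =>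
      intro w
      have e1 : (P ^ (J + 1)) w = P ((P ^ J) w) := by rw [pow_succ', mul_apply_eq_comp]
      have e2 : (F ^ (J + 1)) w = (F ^ J) (F w) := by rw [pow_succ, mul_apply_eq_comp]
      have e3 : F ((P ^ J) w) = (P ^ J) (F w) := by
        rw [← mul_apply_eq_comp, (hPF.pow_right J).eq, mul_apply_eq_comp]
      rw [e1, e2]
      exact (h1 _).trans (e3 ▸ ih (F w))
  have h3 : (thorpOp (2 ^ e)) ^ ((e + 1) * J) = P ^ J := by rw [hP, pow_mul]
  rw [h3]
  have h4 : ⟪v, NormedSpace.exp (-(((J : ℝ) / 32) • L)) v⟫ = ‖(F ^ J) v‖ ^ 2 := by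
    rw [← neg_smul, inner_exp_eq (hsm _), smul_smul, hF, exp_pow_smul]
    congr 5
    ring
  rw [h4]
  exact pow_le_pow_left₀ (norm_nonneg _) (h2 J v) 2

/-- the uniform vector -/
def unif (X : Type) [Fintype X] [DecidableEq X] : EuclideanSpace ℝ (Equiv.Perm X) :=
  WithLp.toLp 2 (fun _ => 1 / (Fintype.card (Equiv.Perm X) : ℝ))

section unif

variable {X : Type} [Fintype X] [DecidableEq X]

lemma reg_unif (g : Equiv.Perm X) : reg X g (unif X) = unif X := by
  ext h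
  rw [reg_apply]
  rfl

lemma lap_unif : lap (reg X) (unif X) = 0 := by
  simp only [lap, _root_.smul_apply, _root_.sum_apply, _root_.sub_apply, one_apply_eq_self,
    reg_unif, sub_self, Finset.sum_const_zero, smul_zero]

lemma exp_zero_apply {V : Type*} [NormedAddCommGroup V] [InnerProductSpace ℝ V] [CompleteSpace V]
    (S : V →L[ℝ] V) (u : V) (hu : S u = 0) : NormedSpace.exp S u = u := by
  have hs := NormedSpace.exp_series_hasSum_exp' (𝕂 := ℝ) S
  have h2 := (ContinuousLinearMap.apply ℝ V u).hasSum hs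
  have h3 : HasSum (fun n : ℕ => (ContinuousLinearMap.apply ℝ V u)
      (((n.factorial : ℝ)⁻¹) • S ^ n)) u := by
    have e : (ContinuousLinearMap.apply ℝ V u) ((((0:ℕ).factorial : ℝ)⁻¹) • S ^ 0) = u := by
      simp
    have h4 : HasSum (fun n : ℕ => (ContinuousLinearMap.apply ℝ V u)
      (((n.factorial : ℝ)⁻¹) • S ^ n))
        ((ContinuousLinearMap.apply ℝ V u) ((((0:ℕ).factorial : ℝ)⁻¹) • S ^ 0)) := by
      refine hasSum_single 0 fun n hn => ?_
      obtain ⟨k, rfl⟩ := Nat.exists_eq_succ_of_ne_zero hn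
      rw [ContinuousLinearMap.apply_apply, _root_.smul_apply, pow_succ, mul_apply_eq_comp, hu,
        map_zero, smul_zero]
    rwa [e] at h4
  exact h2.unique h3

lemma inner_unif_single (g : Equiv.Perm X) :
    ⟪unif X, EuclideanSpace.single g (1:ℝ)⟫ = 1 / (Fintype.card (Equiv.Perm X) : ℝ) := by
  rw [EuclideanSpace.inner_single_right]
  simp [unif]

lemma inner_unif_unif : ⟪unif X, unif X⟫ = 1 / (Fintype.card (Equiv.Perm X) : ℝ) := by
  have h : (0:ℝ) < (Fintype.card (Equiv.Perm X) : ℝ) := by exact_mod_cast Fintype.card_pos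
  rw [real_inner_self_eq_norm_sq, EuclideanSpace.real_norm_sq_eq]
  simp only [unif, Finset.sum_const, Finset.card_univ, nsmul_eq_mul]
  field_simp

lemma inner_heat (s : ℝ) :
    ⟪EuclideanSpace.single (1 : Equiv.Perm X) (1:ℝ) - unif X,
      NormedSpace.exp (-(s • lap (reg X))) (EuclideanSpace.single (1 : Equiv.Perm X) (1:ℝ) -
        unif X)⟫ =
    ⟪(EuclideanSpace.single (1 : Equiv.Perm X) (1:ℝ) : EuclideanSpace ℝ (Equiv.Perm X)),
      NormedSpace.exp (-(s • lap (reg X))) (EuclideanSpace.single (1 : Equiv.Perm X) (1:ℝ))⟫ -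
      1 / (Fintype.card (Equiv.Perm X) : ℝ) := by
  set E := NormedSpace.exp (-(s • lap (reg X))) with hE
  have hEu : E (unif X) = unif X := by
    refine exp_zero_apply _ _ ?_
    rw [_root_.neg_apply, _root_.smul_apply, lap_unif, smul_zero, neg_zero]
  have hEs : ∀ v w, ⟪E v, w⟫ = ⟪v, E w⟫ := by
    refine exp_symm ?_
    intro v w
    simp only [_root_.neg_apply, _root_.smul_apply, inner_neg_left, inner_neg_right,
      real_inner_smul_left, real_inner_smul_right, lap_symm (reg_orth X)]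
  rw [map_sub, hEu, inner_sub_left, inner_sub_right, inner_sub_right, ← hEs (unif X), hEu,
    inner_unif_unif, inner_unif_single,
    real_inner_comm (unif X) (EuclideanSpace.single (1 : Equiv.Perm X) (1:ℝ)), inner_unif_single]
  ring

end unif

lemma thorpOp_unif (e : ℕ) :
    thorpOp (2 ^ e) (unif (Fin (2 * 2 ^ e))) = unif (Fin (2 * 2 ^ e)) := by
  rw [thorpOp_eq, _root_.sum_apply]
  simp only [_root_.smul_apply, reg_unif]
  rw [← Finset.sum_smul, thorpLaw_sum, one_smul]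

/-- the basic `L²` estimate for the total variation distance -/
theorem tv_bound (e J t : ℕ) (ht : (e + 1) * J ≤ t)
    (h : ((2 * 2 ^ e : ℕ) : ℝ) ^ 2 * Real.exp (-((J : ℝ) / 32) / 4) ≤ 1 / 2) :
    tvUnif (convPow (thorpLaw (2 ^ e)) t) ^ 2 ≤
      (1 / 2) * (((2 * 2 ^ e : ℕ) : ℝ) ^ 2 * Real.exp (-((J : ℝ) / 32) / 4)) := by
  set X := Fin (2 * 2 ^ e) with hX
  have hcard : Fintype.card X = 2 * 2 ^ e := Fintype.card_fin _
  have : Nonempty X := ⟨⟨0, by positivity⟩⟩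
  set G := Equiv.Perm X with hG
  set δ : EuclideanSpace ℝ G := EuclideanSpace.single (1 : G) (1:ℝ) with hδ
  set N : ℝ := (Fintype.card G : ℝ) with hN
  have hNpos : 0 < N := by rw [hN]; exact_mod_cast Fintype.card_pos
  have hNfac : ((Fintype.card X).factorial : ℝ) = N := by
    show ((Fintype.card X).factorial : ℝ) = (Fintype.card (Equiv.Perm X) : ℝ)
    rw [Fintype.card_perm]
  set T := thorpOp (2 ^ e) with hT
  obtain ⟨k, hk⟩ := Nat.exists_eq_add_of_le ht
  -- `L²` bound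
  have hnorm : ‖(T ^ t) (δ - unif X)‖ ^ 2 ≤
      ⟪δ - unif X, NormedSpace.exp (-(((J : ℝ) / 32) • lap (reg X))) (δ - unif X)⟫ := by
    refine le_trans ?_ (passes_norm_le e J (δ - unif X))
    refine pow_le_pow_left₀ (norm_nonneg _) ?_ 2
    have e1 : T ^ t = T ^ k * T ^ ((e + 1) * J) := by rw [hk, ← pow_add, add_comm]
    rw [e1, mul_apply_eq_comp]
    exact thorpOp_pow_norm_le e k _
  have hheat := heat_trace X ((J : ℝ) / 32) (by rw [hcard]; exact h)
  rw [inner_heat] at hnorm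
  have h1 : N * ‖(T ^ t) (δ - unif X)‖ ^ 2 ≤
      2 * (((2 * 2 ^ e : ℕ) : ℝ) ^ 2 * Real.exp (-((J : ℝ) / 32) / 4)) := by
    have h2 := mul_le_mul_of_nonneg_left hnorm hNpos.le
    rw [mul_sub, mul_one_div, div_self hNpos.ne'] at h2
    rw [hNfac, hcard] at hheat
    have h3 : 1 + 2 * ((2 * 2 ^ e : ℕ) : ℝ) ^ 2 * Real.exp (-((J : ℝ) / 32) / 4) - 1 =
        2 * (((2 * 2 ^ e : ℕ) : ℝ) ^ 2 * Real.exp (-((J : ℝ) / 32) / 4)) := by ring
    rw [← h3]
    exact h2.trans (sub_le_sub_right hheat 1)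
  -- the vector
  have hTu : (T ^ t) (unif X) = unif X := by
    have h0 : T (unif X) = unif X := thorpOp_unif e
    have : ∀ k : ℕ, (T ^ k) (unif X) = unif X := by
      intro k
      induction k with
      | zero => simp
      | succ k ih => rw [pow_succ, mul_apply_eq_comp, h0, ih]
    exact this t
  have hv : ∀ g : G, ((T ^ t) (δ - unif X)) g =
      convPow (thorpLaw (2 ^ e)) t g - 1 / (Fintype.card G : ℝ) := by
    intro g
    rw [map_sub, hTu, hT, hδ, thorpOp_pow]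
    rfl
  have htv : tvUnif (convPow (thorpLaw (2 ^ e)) t) =
      (1 / 2) * ∑ g : G, |((T ^ t) (δ - unif X)) g| := by
    unfold tvUnif
    congr 1
    exact Finset.sum_congr rfl fun g _ => by rw [hv g]
  rw [htv, mul_pow]
  have hcs := sq_sum_le_card_mul_sum_sq (s := (Finset.univ : Finset G))
    (f := fun g => |((T ^ t) (δ - unif X)) g|)
  simp only [sq_abs] at hcs
  rw [← EuclideanSpace.real_norm_sq_eq, Finset.card_univ] at hcs
  have h4 : (∑ g : G, |((T ^ t) (δ - unif X)) g|) ^ 2 ≤ N * ‖(T ^ t) (δ - unif X)‖ ^ 2 := hcs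
  nlinarith [h4, h1]

/-- Main theorem: `C log n (log n + log (1 / ε))` Thorp shuffles of `n = 2 ^ (e + 1)` cards are
enough for total variation distance `ε`. -/
theorem thorp_tv (e : ℕ) (ε : ℝ) (hε : 0 < ε) (hε1 : ε ≤ 1) (t : ℕ)
    (ht : 600 * Real.log (2 * 2 ^ e) * (Real.log (2 * 2 ^ e) + Real.log (1 / ε)) ≤ t) :
    tvUnif (convPow (thorpLaw (2 ^ e)) t) ≤ ε := by
  set ℓ := Real.log (2 * 2 ^ e) with hℓ
  set r := Real.log (1 / ε) with hr
  have hr0 : 0 ≤ r := Real.log_nonneg (by rw [le_div_iff₀ hε]; linarith)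
  have hl2 : (0.6931471803 : ℝ) < Real.log 2 := Real.log_two_gt_d9
  have hl2' : Real.log 2 < (0.6931471808 : ℝ) := Real.log_two_lt_d9
  have hℓe : ℓ = ((e : ℝ) + 1) * Real.log 2 := by
    rw [hℓ, ← pow_succ', Real.log_pow]; push_cast; ring
  have he1 : (0:ℝ) < (e : ℝ) + 1 := by positivity
  have hℓ2 : Real.log 2 ≤ ℓ := by
    rw [hℓe]; nlinarith [Nat.cast_nonneg (α := ℝ) e]
  set J := t / (e + 1) with hJ
  have hJ1 : (e + 1) * J ≤ t := Nat.mul_div_le t (e + 1)
  have hJ2 : (t : ℝ) < ((e : ℝ) + 1) * ((J : ℝ) + 1) := by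
    have : t < (e + 1) * (t / (e + 1) + 1) := Nat.lt_mul_div_succ t (Nat.succ_pos e)
    exact_mod_cast this
  have hJ3 : 600 * Real.log 2 * (ℓ + r) < (J : ℝ) + 1 := by
    have h1 : 600 * ℓ * (ℓ + r) = ((e : ℝ) + 1) * (600 * Real.log 2 * (ℓ + r)) := by
      nth_rewrite 1 [hℓe]; ring
    rw [h1] at ht
    exact lt_of_mul_lt_mul_left (lt_of_le_of_lt ht hJ2) he1.le
  have hJ4 : 128 * (2 * ℓ + 2 * r + Real.log 2) ≤ (J : ℝ) := by
    have h1 : 414 * (ℓ + r) ≤ 600 * Real.log 2 * (ℓ + r) := by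
      refine mul_le_mul_of_nonneg_right (by linarith) (by linarith)
    linarith
  have hNlog : ((2 * 2 ^ e : ℕ) : ℝ) = Real.exp ℓ := by
    rw [hℓ, Real.exp_log (by positivity)]; push_cast; ring
  have hεlog : ε = Real.exp (-r) := by
    rw [hr, ← Real.log_inv, one_div, inv_inv, Real.exp_log hε]
  have hmain : ((2 * 2 ^ e : ℕ) : ℝ) ^ 2 * Real.exp (-((J : ℝ) / 32) / 4) ≤ ε ^ 2 / 2 := by
    have h1 : ε ^ 2 / 2 = Real.exp (-(2 * r) - Real.log 2) := by
      rw [Real.exp_sub, Real.exp_log (by norm_num : (0:ℝ) < 2), hεlog, ← Real.exp_nat_mul]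
      congr 2
      push_cast; ring
    rw [h1, hNlog, ← Real.exp_nat_mul, ← Real.exp_add, Real.exp_le_exp]
    push_cast
    linarith
  have hhalf : ((2 * 2 ^ e : ℕ) : ℝ) ^ 2 * Real.exp (-((J : ℝ) / 32) / 4) ≤ 1 / 2 := by
    refine hmain.trans ?_
    nlinarith
  have h1 := tv_bound e J t hJ1 hhalf
  have h2 : tvUnif (convPow (thorpLaw (2 ^ e)) t) ^ 2 ≤ ε ^ 2 := by nlinarith
  exact le_of_sq_le_sq h2 hε.le

/-- The mixing time of the Thorp shuffle of `n = 2 ^ d` cards is `O((log n) ^ 2)`. -/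
theorem thorp_tmix (e : ℕ) :
    {t : ℕ | tvUnif (convPow (thorpLaw (2 ^ e)) t) ≤ 1 / 4}.Nonempty ∧
    (tmix (2 ^ e) : ℝ) ≤ 2000 * (Real.log (2 * 2 ^ e)) ^ 2 := by
  set ℓ := Real.log (2 * 2 ^ e) with hℓ
  have hl2 : (0.6931471803 : ℝ) < Real.log 2 := Real.log_two_gt_d9
  have hℓe : ℓ = ((e : ℝ) + 1) * Real.log 2 := by
    rw [hℓ, ← pow_succ', Real.log_pow]; push_cast; ring
  have hℓ2 : Real.log 2 ≤ ℓ := by
    rw [hℓe]; nlinarith [Nat.cast_nonneg (α := ℝ) e]
  have hlog4 : Real.log (1 / (1 / 4 : ℝ)) = 2 * Real.log 2 := by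
    rw [show (1 / (1 / 4 : ℝ)) = 2 ^ 2 by norm_num, Real.log_pow]; push_cast; ring
  set t := ⌈1800 * ℓ ^ 2⌉₊ with ht
  have hmem : tvUnif (convPow (thorpLaw (2 ^ e)) t) ≤ 1 / 4 := by
    refine thorp_tv e (1 / 4) (by norm_num) (by norm_num) t ?_
    rw [hlog4]
    refine le_trans ?_ (Nat.le_ceil _)
    rw [← hℓ]
    nlinarith
  refine ⟨⟨t, hmem⟩, ?_⟩
  have h1 : tmix (2 ^ e) ≤ t := Nat.sInf_le hmem
  have h2 : (t : ℝ) < 1800 * ℓ ^ 2 + 1 := Nat.ceil_lt_add_one (by positivity)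
  have h3 : (tmix (2 ^ e) : ℝ) ≤ t := by exact_mod_cast h1
  nlinarith

end

end Vale.Agent.P162
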