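import Vale.Agent.Lib.P162.Basic
import Vale.Agent.Lib.P162.Cube

/-!
# P162: flips, character components and the operators `Yop`
-/

namespace Vale.Agent.P162

open scoped RealInnerProductSpace

noncomputable section

section general

variable {X : Type*} [Fintype X] [DecidableEq X]
variable {V : Type*} [NormedAddCommGroup V] [InnerProductSpace ℝ V]
variable {ρ : Equiv.Perm X →* (V →L[ℝ] V)}

omit [Fintype X] [DecidableEq X] in
lemma orth_norm (hρ : Orth ρ) (g : Equiv.Perm X) (v : V) : ‖ρ g v‖ = ‖v‖ := by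
  rw [@norm_eq_sqrt_real_inner V, @norm_eq_sqrt_real_inner V, hρ]

omit [Fintype X] [DecidableEq X] in
lemma map_mul_apply' (g h : Equiv.Perm X) (v : V) : ρ (g * h) v = ρ g (ρ h v) := by
  rw [map_mul]; rfl

omit [Fintype X] [DecidableEq X] in
lemma orth_adj (hρ : Orth ρ) (g : Equiv.Perm X) (v w : V) : ⟪ρ g v, w⟫ = ⟪v, ρ g⁻¹ w⟫ := by
  rw [← hρ g v (ρ g⁻¹ w), ← map_mul_apply', mul_inv_cancel, map_one]
  rfl

end general

variable {Y : Type*} [Fintype Y] [DecidableEq Y]
variable {V : Type*} [NormedAddCommGroup V] [InnerProductSpace ℝ V]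
variable (ρ : Equiv.Perm (Bool × Y) →* (V →L[ℝ] V))

omit [Fintype Y] [DecidableEq Y] in
@[simp] lemma flip_apply (c : Y → Bool) (p : Bool × Y) : flip c p = (xor (c p.2) p.1, p.2) := rfl

omit [Fintype Y] [DecidableEq Y] in
lemma flip_mul (c c' : Y → Bool) : flip c * flip c' = flip (fun y => xor (c y) (c' y)) := by
  ext p <;> simp

omit [Fintype Y] [DecidableEq Y] in
lemma flip_zero : flip (fun _ : Y => false) = 1 := by
  ext p <;> simp

omit [Fintype Y] [DecidableEq Y] in
lemma flip_inv (c : Y → Bool) : (flip c)⁻¹ = flip c := by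
  rw [inv_eq_iff_mul_eq_one, flip_mul]
  simpa using flip_zero

omit [Fintype Y] in
lemma flip_swap (c : Y → Bool) (p q : Bool × Y) :
    flip c * Equiv.swap p q = Equiv.swap (flip c p) (flip c q) * flip c :=
  Equiv.mul_swap_eq_swap_mul _ _ _

/-- the sign of a coin -/
def sb (b : Bool) : ℝ := if b then -1 else 1

@[simp] lemma sb_true : sb true = -1 := rfl
@[simp] lemma sb_false : sb false = 1 := rfl

lemma sb_xor (a b : Bool) : sb (xor a b) = sb a * sb b := by
  cases a <;> cases b <;> simp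

lemma sb_mul_self (a : Bool) : sb a * sb a = 1 := by cases a <;> simp

/-- character of the group of coins -/
def sg (χ : Finset Y) (c : Y → Bool) : ℝ := ∏ i ∈ χ, sb (c i)

omit [Fintype Y] [DecidableEq Y] in
lemma sg_xor (χ : Finset Y) (c c' : Y → Bool) :
    sg χ (fun y => xor (c y) (c' y)) = sg χ c * sg χ c' := by
  simp only [sg, sb_xor, Finset.prod_mul_distrib]

omit [Fintype Y] [DecidableEq Y] in
lemma sg_mul_self (χ : Finset Y) (c : Y → Bool) : sg χ c * sg χ c = 1 := by
  simp only [sg, ← Finset.prod_mul_distrib, sb_mul_self, Finset.prod_const_one]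

omit [Fintype Y] in
lemma sg_tog (i : Y) (χ : Finset Y) (c : Y → Bool) : sg (tog i χ) c = sb (c i) * sg χ c := by
  by_cases h : i ∈ χ
  · have h1 : χ = insert i (tog i χ) := by
      ext j; rw [Finset.mem_insert, mem_tog]
      by_cases hj : j = i
      · subst hj; simp [h]
      · simp [hj]
    have h2 : i ∉ tog i χ := by simp [h]
    conv_rhs => rw [h1]
    rw [sg, sg, Finset.prod_insert h2, ← mul_assoc, sb_mul_self, one_mul]
  · have h1 : tog i χ = insert i χ := by
      ext j; rw [Finset.mem_insert, mem_tog]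
      by_cases hj : j = i
      · subst hj; simp [h]
      · simp [hj]
    rw [h1, sg, Finset.prod_insert h]; rfl

omit [DecidableEq Y] in
lemma sum_sg (c : Y → Bool) :
    ∑ χ : Finset Y, sg χ c = if c = (fun _ => false) then (2:ℝ) ^ (Fintype.card Y) else 0 := by
  have h := @Finset.prod_one_add Y ℝ _ (fun i => sb (c i)) Finset.univ
  rw [Finset.powerset_univ] at h
  have h' : ∑ χ : Finset Y, sg χ c = ∏ i : Y, (1 + sb (c i)) := h.symm
  rw [h']
  split_ifs with hc
  · subst hc
    simp [Finset.card_univ]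
    norm_num
  · have : ∃ i, c i = true := by
      by_contra hcon
      push Not at hcon
      exact hc (funext fun i => by simpa using hcon i)
    obtain ⟨i, hi⟩ := this
    exact Finset.prod_eq_zero (Finset.mem_univ i) (by simp [hi])

/-- the `χ`-isotypic projection for the group of coins -/
def cmp (χ : Finset Y) : V →L[ℝ] V :=
  ((1 : ℝ) / 2 ^ (Fintype.card Y)) • ∑ c : Y → Bool, sg χ c • ρ (flip c)

/-- translation by `c` on the coins -/
def xorE (c : Y → Bool) : (Y → Bool) ≃ (Y → Bool) where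
  toFun c' := fun y => xor (c y) (c' y)
  invFun c' := fun y => xor (c y) (c' y)
  left_inv c' := by funext y; simp
  right_inv c' := by funext y; simp

lemma flip_cmp (c : Y → Bool) (χ : Finset Y) (v : V) :
    ρ (flip c) (cmp ρ χ v) = sg χ c • cmp ρ χ v := by
  simp only [cmp, _root_.smul_apply, _root_.sum_apply, map_smul, map_sum]
  rw [smul_comm]
  congr 1
  rw [← Equiv.sum_comp (xorE c), Finset.smul_sum]
  refine Finset.sum_congr rfl fun c' _ => ?_
  rw [← map_mul_apply', flip_mul, smul_smul]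
  congr 1
  · show sg χ (fun y => xor (c y) (c' y)) = _
    rw [sg_xor]
  · congr 2
    show flip (fun y => xor (c y) (xor (c y) (c' y))) = flip c'
    congr 1; funext y; simp

lemma sum_cmp (v : V) : ∑ χ : Finset Y, cmp ρ χ v = v := by
  simp only [cmp, _root_.smul_apply, _root_.sum_apply]
  rw [← Finset.smul_sum, Finset.sum_comm]
  simp only [← Finset.sum_smul, sum_sg]
  rw [Finset.sum_eq_single (fun _ => false)]
  · rw [if_pos rfl, flip_zero, map_one, smul_smul]
    simp
  · intro c _ hc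
    rw [if_neg hc, zero_smul]
  · intro h; exact absurd (Finset.mem_univ _) h

variable {ρ}

lemma inner_cmp (hρ : Orth ρ) {χ χ' : Finset Y} (h : χ ≠ χ') (v w : V) :
    ⟪cmp ρ χ v, cmp ρ χ' w⟫ = 0 := by
  obtain ⟨i, hi⟩ : ∃ i, ¬ (i ∈ χ ↔ i ∈ χ') := by
    by_contra hcon
    push Not at hcon
    exact h (Finset.ext hcon)
  set c : Y → Bool := fun j => decide (j = i) with hc
  have hsg : ∀ χ : Finset Y, sg χ c = if i ∈ χ then -1 else 1 := by
    intro χ
    split_ifs with h1
    · rw [sg, Finset.prod_eq_single i]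
      · simp [hc]
      · intro j _ hj; simp [hc, hj]
      · intro h2; exact absurd h1 h2
    · rw [sg]
      refine Finset.prod_eq_one fun j hj => ?_
      have : j ≠ i := fun h2 => h1 (h2 ▸ hj)
      simp [hc, this]
  have key : ⟪cmp ρ χ v, cmp ρ χ' w⟫ = (sg χ c * sg χ' c) * ⟪cmp ρ χ v, cmp ρ χ' w⟫ := by
    conv_lhs => rw [← hρ (flip c), flip_cmp, flip_cmp, real_inner_smul_left, real_inner_smul_right]
    ring
  have hneg : sg χ c * sg χ' c = -1 := by
    rw [hsg, hsg]
    by_cases h1 : i ∈ χ <;> by_cases h2 : i ∈ χ' <;> simp_all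
  rw [hneg] at key
  linarith

lemma inner_eq_sum (hρ : Orth ρ) (v w : V) :
    ⟪v, w⟫ = ∑ χ : Finset Y, ⟪cmp ρ χ v, cmp ρ χ w⟫ := by
  conv_lhs => rw [← sum_cmp ρ v, ← sum_cmp ρ w]
  rw [sum_inner]
  refine Finset.sum_congr rfl fun χ _ => ?_
  rw [inner_sum, Finset.sum_eq_single χ]
  · intro χ' _ h; exact inner_cmp hρ (Ne.symm h) _ _
  · intro h; exact absurd (Finset.mem_univ _) h

lemma norm_sq_eq_sum (hρ : Orth ρ) (v : V) :
    ‖v‖ ^ 2 = ∑ χ : Finset Y, ‖cmp ρ χ v‖ ^ 2 := by
  rw [← real_inner_self_eq_norm_sq, inner_eq_sum hρ]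
  exact Finset.sum_congr rfl fun χ _ => real_inner_self_eq_norm_sq _

variable (ρ)

/-- the operator `(f i, f j) + (t i, t j) - (f i, t j) - (t i, f j)` -/
def Yop (i j : Y) : V →L[ℝ] V :=
  ρ (Equiv.swap (false, i) (false, j)) + ρ (Equiv.swap (true, i) (true, j))
    - ρ (Equiv.swap (false, i) (true, j)) - ρ (Equiv.swap (true, i) (false, j))

omit [Fintype Y] in
lemma flip_Yop (c : Y → Bool) (i j : Y) (v : V) :
    ρ (flip c) (Yop ρ i j v) = (sb (c i) * sb (c j)) • Yop ρ i j (ρ (flip c) v) := by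
  have key : ∀ p q : Bool × Y, ρ (flip c) (ρ (Equiv.swap p q) v) =
      ρ (Equiv.swap (flip c p) (flip c q)) (ρ (flip c) v) := by
    intro p q
    rw [← map_mul_apply', flip_swap, map_mul_apply']
  simp only [Yop, _root_.add_apply, _root_.sub_apply, map_add, map_sub,
    key]
  simp only [flip_apply]
  cases hi : c i <;> cases hj : c j <;> simp <;> abel

lemma cmp_Yop (χ : Finset Y) (i j : Y) (v : V) :
    cmp ρ χ (Yop ρ i j v) = Yop ρ i j (cmp ρ (tog i (tog j χ)) v) := by
  simp only [cmp, _root_.smul_apply, _root_.sum_apply, map_smul, map_sum]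
  congr 1
  refine Finset.sum_congr rfl fun c _ => ?_
  rw [flip_Yop, smul_smul, sg_tog, sg_tog]
  congr 1
  ring

omit [Fintype Y] in
lemma norm_Yop_le (hρ : Orth ρ) (i j : Y) (v : V) : ‖Yop ρ i j v‖ ≤ 4 * ‖v‖ := by
  simp only [Yop, _root_.add_apply, _root_.sub_apply]
  have h := orth_norm hρ
  calc ‖_‖ ≤ ‖ρ (Equiv.swap (false, i) (false, j)) v‖ + ‖ρ (Equiv.swap (true, i) (true, j)) v‖
        + ‖ρ (Equiv.swap (false, i) (true, j)) v‖ + ‖ρ (Equiv.swap (true, i) (false, j)) v‖ := by
        refine (norm_sub_le _ _).trans ?_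
        gcongr
        refine (norm_sub_le _ _).trans ?_
        gcongr
        exact norm_add_le _ _
    _ = 4 * ‖v‖ := by rw [h, h, h, h]; ring

end

end Vale.Agent.P162
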