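import Vale.Agent.Lib.P162.Step

/-!
# P162: transport and iteration of the contraction property
-/

namespace Vale.Agent.P162

open scoped RealInnerProductSpace

noncomputable section

/-- the Laplacian is transported by a relabelling -/
lemma lap_comp_permCongr {X X' : Type} [Fintype X] [DecidableEq X] [Fintype X'] [DecidableEq X']
    (ψ : X ≃ X') {V : Type*} [NormedAddCommGroup V] [InnerProductSpace ℝ V]
    (ρ : Equiv.Perm X' →* (V →L[ℝ] V)) :
    lap (ρ.comp ψ.permCongrHom.toMonoidHom) = lap ρ := by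
  unfold lap
  rw [Fintype.card_congr ψ]
  congr 1
  rw [← Equiv.sum_comp ψ]
  refine Finset.sum_congr rfl fun a _ => ?_
  rw [← Equiv.sum_comp ψ]
  refine Finset.sum_congr rfl fun b _ => ?_
  have h : ψ.permCongrHom.toMonoidHom (Equiv.swap a b) = Equiv.swap (ψ a) (ψ b) :=
    Equiv.symm_trans_swap_trans a b ψ
  rw [MonoidHom.comp_apply, h]

theorem good_map {X X' : Type} [Fintype X] [DecidableEq X] [Fintype X'] [DecidableEq X']
    (ψ : X ≃ X') (b : MonoidAlgebra ℝ (Equiv.Perm X)) (c : ℝ) (h : Good b c) :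
    Good (MonoidAlgebra.mapDomain ψ.permCongr b) c := by
  intro V _ _ _ ρ hρ v
  have e : MonoidAlgebra.mapDomain ψ.permCongr b =
      MonoidAlgebra.mapDomain ψ.permCongrHom.toMonoidHom b := rfl
  rw [e, act_mapDomain, ← lap_comp_permCongr ψ ρ]
  exact h V _ (fun g v w => hρ _ v w) v

theorem good_mono {X : Type} [Fintype X] [DecidableEq X] {b : MonoidAlgebra ℝ (Equiv.Perm X)}
    {c c' : ℝ} (hc : c' ≤ c) (h : Good b c) : Good b c' := by
  intro V _ _ _ ρ hρ v
  refine (h V ρ hρ v).trans ?_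
  have hLs : ∀ v w : V, ⟪lap ρ v, w⟫ = ⟪v, lap ρ w⟫ := lap_symm hρ
  have hsm : ∀ (r : ℝ), ∀ v w : V, ⟪(r • lap ρ) v, w⟫ = ⟪v, (r • lap ρ) w⟫ := by
    intro r v w
    simp only [_root_.smul_apply, real_inner_smul_left, real_inner_smul_right, hLs]
  rw [← neg_smul, ← neg_smul, inner_exp_eq (hsm (-c))]
  set E := NormedSpace.exp ((1 / 2 : ℝ) • ((-c) • lap ρ)) with hE
  have hE' : E = NormedSpace.exp ((-c / 2) • lap ρ) := by
    rw [hE, smul_smul]; congr 2; ring
  have hEs : ∀ v w : V, ⟪E v, w⟫ = ⟪v, E w⟫ := by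
    rw [hE']; exact exp_symm (hsm _)
  have e1 : NormedSpace.exp ((-c') • lap ρ) = E * (NormedSpace.exp ((c - c') • lap ρ) * E) := by
    have e : (-c') • lap ρ = (-c / 2) • lap ρ + ((c - c') • lap ρ + (-c / 2) • lap ρ) := by
      rw [← add_smul, ← add_smul]; congr 1; ring
    rw [e, exp_add', exp_add', ← hE']
    · exact ((Commute.refl _).smul_left _).smul_right _
    · exact (((Commute.refl _).smul_left _).smul_right _).add_right
        (((Commute.refl _).smul_left _).smul_right _)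
  rw [e1, mul_apply_eq_comp, mul_apply_eq_comp, ← hEs]
  have h2 := one_add_le_exp hLs (inner_lap_nonneg hρ) (sub_nonneg.mpr hc) (E v)
  have h3 := mul_nonneg (sub_nonneg.mpr hc) (inner_lap_nonneg hρ (E v))
  linarith

theorem good_bfly_aux (d : ℕ) : Good (bfly d) (1 / 32 + 1 / 32 / 2 ^ d) := by
  induction d with
  | zero =>
    intro V _ _ _ ρ hρ v
    have hlap : lap ρ = 0 := by
      unfold lap
      rw [Finset.sum_eq_zero, smul_zero]
      intro a _
      refine Finset.sum_eq_zero fun b _ => ?_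
      have : Equiv.swap a b = 1 := Subsingleton.elim _ _
      rw [this, map_one, sub_self]
    rw [hlap, smul_zero, neg_zero, NormedSpace.exp_zero]
    have h1 : act ρ (bfly 0) = 1 := by
      rw [bfly, map_one]
    rw [h1]
    simp
  | succ e ih =>
    rw [bfly]
    refine good_map _ _ _ ?_
    have hp : (0:ℝ) < 2 ^ e := by positivity
    have hp1 : (1:ℝ) ≤ 2 ^ e := one_le_pow₀ (by norm_num)
    have hle : 1 / 32 / (2:ℝ) ^ e ≤ 1 / 32 := div_le_self (by norm_num) hp1
    have h1 := good_dbl (bfly e) (1 / 32 + 1 / 32 / 2 ^ e) (by positivity) (by linarith) ih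
    refine good_mono ?_ h1
    have hcard : (Fintype.card (Fin e → Bool) : ℝ) = 2 ^ e := by
      simp
    rw [hcard]
    have h2 : 4 * (1 / 32 + 1 / 32 / (2:ℝ) ^ e) ^ 2 / 2 ^ e ≤ (1 / 64) / 2 ^ e := by
      refine div_le_div_of_nonneg_right ?_ hp.le
      have h3 : 0 ≤ 1 / 32 / (2:ℝ) ^ e := by positivity
      nlinarith
    have h4 : 1 / 32 / (2:ℝ) ^ (e + 1) = (1 / 64) / 2 ^ e := by
      rw [pow_succ]; field_simp; norm_num
    have h5 : 1 / 32 / (2:ℝ) ^ e = (1 / 64) / 2 ^ e + (1 / 64) / 2 ^ e := by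
      field_simp; norm_num
    rw [h4]
    linarith

theorem good_bfly (d : ℕ) : Good (bfly d) (1 / 32) := by
  refine good_mono ?_ (good_bfly_aux d)
  have : 0 ≤ 1 / 32 / (2:ℝ) ^ d := by positivity
  linarith

end

end Vale.Agent.P162
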