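import Vale.Agent.Lib.P162.Flip

/-!
# P162: the key inequality
-/

namespace Vale.Agent.P162

open scoped RealInnerProductSpace

noncomputable section

variable {Y : Type*} [Fintype Y] [DecidableEq Y]
variable {V : Type*} [NormedAddCommGroup V] [InnerProductSpace ℝ V]
variable (ρ : Equiv.Perm (Bool × Y) →* (V →L[ℝ] V))

/-- the difference between the Laplacian of the whole and the Laplacians of the halves -/
def Gop : V →L[ℝ] V := (1 / (4 * (Fintype.card Y : ℝ))) • ∑ i : Y, ∑ j : Y, Yop ρ i j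

omit [Fintype Y] in
lemma half_swap (h : Bool) (i j : Y) :
    half h (Equiv.swap i j) = Equiv.swap (h, i) (h, j) := by
  ext ⟨a, b⟩
  all_goals
    by_cases ha : a = h <;> by_cases hb : b = i <;> by_cases hb' : b = j <;>
      simp_all [half, Equiv.swap_apply_def, Prod.ext_iff]

lemma lap_split : lap ρ = (lap (ρ.comp (half false)) + lap (ρ.comp (half true))) + Gop ρ := by
  simp only [lap, Gop, Yop, MonoidHom.comp_apply, half_swap, Fintype.sum_prod_type,
    Fintype.sum_bool, Fintype.card_prod, Fintype.card_bool, Nat.cast_mul, Nat.cast_ofNat]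
  have h1 : (1 / (2 * (Fintype.card Y : ℝ))) = 2 * (1 / (4 * (Fintype.card Y : ℝ))) := by
    by_cases hm : (Fintype.card Y : ℝ) = 0
    · simp [hm]
    · field_simp; norm_num
  have h2 : (1 / (2 * (2 * (Fintype.card Y : ℝ)))) = 1 / (4 * (Fintype.card Y : ℝ)) := by
    congr 1; ring
  rw [h1, h2, ← smul_add, mul_smul, ← smul_comm, ← smul_add]
  congr 1
  simp only [Finset.sum_add_distrib, Finset.sum_sub_distrib, two_smul]
  abel

variable {ρ}

lemma cmp_Gop (χ : Finset Y) (v : V) :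
    cmp ρ χ (Gop ρ v) = (1 / (4 * (Fintype.card Y : ℝ))) •
      ∑ i : Y, ∑ j : Y, Yop ρ i j (cmp ρ (tog i (tog j χ)) v) := by
  simp only [Gop, _root_.smul_apply, _root_.sum_apply, map_smul, map_sum, cmp_Yop]

lemma cmp_empty {u : V} (hu : ∀ c : Y → Bool, ρ (flip c) u = u) : cmp ρ ∅ u = u := by
  simp only [cmp, _root_.smul_apply, _root_.sum_apply, hu, sg, Finset.prod_empty, one_smul,
    Finset.sum_const, Finset.card_univ, Fintype.card_fun, Fintype.card_bool]
  rw [← Nat.cast_smul_eq_nsmul ℝ, smul_smul]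
  simp

lemma cmp_ne_empty (hρ : Orth ρ) {u : V} (hu : ∀ c : Y → Bool, ρ (flip c) u = u)
    {χ : Finset Y} (hχ : χ ≠ ∅) : cmp ρ χ u = 0 := by
  have h := norm_sq_eq_sum hρ u
  rw [← Finset.add_sum_erase _ _ (Finset.mem_univ (∅ : Finset Y)), cmp_empty hu] at h
  have h0 : ∑ χ ∈ Finset.univ.erase (∅ : Finset Y), ‖cmp ρ χ u‖ ^ 2 = 0 := by linarith
  rw [Finset.sum_eq_zero_iff_of_nonneg (fun χ _ => sq_nonneg _)] at h0
  have := h0 χ (Finset.mem_erase.mpr ⟨hχ, Finset.mem_univ _⟩)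
  simpa using this

omit [Fintype Y] in
lemma Yop_self {u : V} (hu : ∀ c : Y → Bool, ρ (flip c) u = u) (i : Y) : Yop ρ i i u = 0 := by
  have hs : (Equiv.swap (false, i) (true, i) : Equiv.Perm (Bool × Y)) =
      flip (fun j => decide (j = i)) := by
    ext ⟨a, b⟩
    all_goals
      by_cases hb : b = i <;> cases a <;>
        simp_all [Equiv.swap_apply_def, Prod.ext_iff]
  simp only [Yop, _root_.add_apply, _root_.sub_apply, Equiv.swap_self]
  rw [Equiv.swap_comm (true, i) (false, i), hs, hu]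
  have : ρ (Equiv.refl (Bool × Y)) = 1 := map_one ρ
  rw [this]
  simp

omit [Fintype Y] in
lemma tog_tog_empty_ne {i j : Y} (h : i ≠ j) : tog i (tog j (∅ : Finset Y)) ≠ ∅ := by
  intro h0
  have : i ∈ tog i (tog j (∅ : Finset Y)) := by
    simp [mem_tog, h]
  rw [h0] at this
  simp at this

omit [Fintype Y] in
lemma tog_pair {i j k l : Y} (h : i ≠ j)
    (he : tog i (tog j (∅ : Finset Y)) = tog k (tog l ∅)) :
    (k = i ∧ l = j) ∨ (k = j ∧ l = i) := by
  have h1 := Finset.ext_iff.mp he i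
  have h2 := Finset.ext_iff.mp he j
  simp only [mem_tog, Finset.notMem_empty, false_and, not_false_eq_true, true_and, false_or] at h1 h2
  by_cases hki : k = i
  · subst hki
    by_cases hlj : l = j
    · exact Or.inl ⟨rfl, hlj⟩
    · by_cases hlk : l = k
      · subst hlk; simp_all
      · exfalso
        have : j ≠ k := fun h' => h h'.symm
        have h3 : j ≠ l := fun h' => hlj h'.symm
        simp_all
  · by_cases hli : l = i
    · subst hli
      by_cases hkj : k = j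
      · exact Or.inr ⟨hkj, rfl⟩
      · exfalso
        have : j ≠ l := fun h' => h h'.symm
        have h3 : j ≠ k := fun h' => hkj h'.symm
        simp_all
    · exfalso
      have : i ≠ k := fun h' => hki h'.symm
      have h3 : i ≠ l := fun h' => hli h'.symm
      simp_all

lemma cmp_empty_Gop (hρ : Orth ρ) {u : V} (hu : ∀ c : Y → Bool, ρ (flip c) u = u) :
    cmp ρ ∅ (Gop ρ u) = 0 := by
  rw [cmp_Gop]
  rw [Finset.sum_eq_zero, smul_zero]
  intro i _
  refine Finset.sum_eq_zero fun j _ => ?_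
  by_cases hij : i = j
  · subst hij
    rw [tog_tog, cmp_empty hu, Yop_self hu]
  · rw [cmp_ne_empty hρ hu (tog_tog_empty_ne hij), map_zero]

lemma inner_Gop_self (hρ : Orth ρ) {u : V} (hu : ∀ c : Y → Bool, ρ (flip c) u = u) :
    ⟪u, Gop ρ u⟫ = 0 := by
  rw [inner_eq_sum hρ]
  refine Finset.sum_eq_zero fun χ _ => ?_
  by_cases hχ : χ = ∅
  · subst hχ; rw [cmp_empty_Gop hρ hu, inner_zero_right]
  · rw [cmp_ne_empty hρ hu hχ, inner_zero_left]

lemma cmp_Gop_supp (hρ : Orth ρ) {u : V} (hu : ∀ c : Y → Bool, ρ (flip c) u = u) (χ : Finset Y)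
    (hχ : 2 < χ.card) : cmp ρ χ (Gop ρ u) = 0 := by
  rw [cmp_Gop]
  rw [Finset.sum_eq_zero, smul_zero]
  intro i _
  refine Finset.sum_eq_zero fun j _ => ?_
  rw [cmp_ne_empty hρ hu, map_zero]
  intro h0
  have h1 := card_le_tog j χ
  have h2 := card_le_tog i (tog j χ)
  rw [h0] at h2
  simp at h2
  omega

/-- the norm profile of a vector -/
def prof (ρ : Equiv.Perm (Bool × Y) →* (V →L[ℝ] V)) (v : V) (χ : Finset Y) : ℝ := ‖cmp ρ χ v‖

lemma prof_Gop (hρ : Orth ρ) (v : V) (χ : Finset Y) :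
    prof ρ (Gop ρ v) χ ≤ (1 / (Fintype.card Y : ℝ)) * adj (adj (prof ρ v)) χ := by
  have hm : (0:ℝ) ≤ 1 / (4 * (Fintype.card Y : ℝ)) := by positivity
  unfold prof
  rw [cmp_Gop, norm_smul, Real.norm_of_nonneg hm]
  have h1 : ‖∑ i : Y, ∑ j : Y, Yop ρ i j (cmp ρ (tog i (tog j χ)) v)‖ ≤
      ∑ i : Y, ∑ j : Y, 4 * ‖cmp ρ (tog i (tog j χ)) v‖ := by
    refine (norm_sum_le _ _).trans (Finset.sum_le_sum fun i _ => ?_)
    exact (norm_sum_le _ _).trans (Finset.sum_le_sum fun j _ => norm_Yop_le ρ hρ i j _)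
  refine (mul_le_mul_of_nonneg_left h1 hm).trans (le_of_eq ?_)
  simp only [adj]
  rw [← Finset.sum_congr rfl fun i _ => (Finset.mul_sum _ _ _), ← Finset.mul_sum, ← mul_assoc]
  congr 1
  · by_cases hm0 : (Fintype.card Y : ℝ) = 0
    · simp [hm0]
    · field_simp
  · refine Finset.sum_congr rfl fun i _ => Finset.sum_congr rfl fun j _ => ?_
    rw [tog_comm]

lemma adj_const_mul (a : ℝ) (f : Finset Y → ℝ) : adj (fun χ => a * f χ) = fun χ => a * adj f χ := by
  funext χ
  simp only [adj, Finset.mul_sum]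

lemma prof_Gop_iter (hρ : Orth ρ) (v : V) (p : ℕ) (χ : Finset Y) :
    prof ρ ((Gop ρ ^ p) v) χ ≤ (1 / (Fintype.card Y : ℝ)) ^ p * (adj^[2 * p] (prof ρ v)) χ := by
  induction p generalizing χ with
  | zero => simp
  | succ p ih =>
    rw [pow_succ', mul_apply_eq_comp]
    refine (prof_Gop hρ _ χ).trans ?_
    have hm : (0:ℝ) ≤ 1 / ((Fintype.card Y : ℝ)) := by positivity
    have h2 : adj (adj (prof ρ ((Gop ρ ^ p) v))) χ ≤
        (1 / (Fintype.card Y : ℝ)) ^ p * (adj^[2 * (p + 1)] (prof ρ v)) χ := by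
      have h3 := adj_mono (adj_mono ih) χ
      rw [adj_const_mul, adj_const_mul] at h3
      rw [show 2 * (p + 1) = (2 * p + 1) + 1 by ring, Function.iterate_succ_apply',
        Function.iterate_succ_apply']
      exact h3
    refine (mul_le_mul_of_nonneg_left h2 hm).trans (le_of_eq ?_)
    ring

lemma adj_iter_symm (f g : Finset Y → ℝ) (p : ℕ) :
    ∑ χ, f χ * (adj^[p] g) χ = ∑ χ, (adj^[p] f) χ * g χ := by
  induction p generalizing g with
  | zero => simp
  | succ p ih =>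
    rw [Function.iterate_succ_apply, ih, adj_symm, Function.iterate_succ_apply']

lemma abs_inner_le (hρ : Orth ρ) {y : V} (hy : ∀ χ : Finset Y, 2 < χ.card → cmp ρ χ y = 0)
    (p : ℕ) : |⟪y, (Gop ρ ^ p) y⟫| ≤ 4 ^ p * ((p + 2).factorial / 2) * ‖y‖ ^ 2 := by
  by_cases hm0 : (Fintype.card Y : ℝ) = 0
  · have hG : Gop ρ = 0 := by simp [Gop, hm0]
    rcases Nat.eq_zero_or_pos p with hp | hp
    · subst hp
      simp
    · rw [hG, zero_pow hp.ne']
      simp
      positivity
  have hm : (0:ℝ) < (Fintype.card Y : ℝ) := lt_of_le_of_ne (Nat.cast_nonneg _) (Ne.symm hm0)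
  have hsupp : ∀ χ : Finset Y, 2 < χ.card → prof ρ y χ = 0 := by
    intro χ hχ; simp [prof, hy χ hχ]
  calc |⟪y, (Gop ρ ^ p) y⟫| = |∑ χ : Finset Y, ⟪cmp ρ χ y, cmp ρ χ ((Gop ρ ^ p) y)⟫| := by
        rw [inner_eq_sum hρ]
    _ ≤ ∑ χ : Finset Y, prof ρ y χ * prof ρ ((Gop ρ ^ p) y) χ := by
        refine (Finset.abs_sum_le_sum_abs _ _).trans (Finset.sum_le_sum fun χ _ => ?_)
        exact abs_real_inner_le_norm _ _
    _ ≤ ∑ χ : Finset Y, prof ρ y χ *
          ((1 / (Fintype.card Y : ℝ)) ^ p * (adj^[2 * p] (prof ρ y)) χ) := by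
        refine Finset.sum_le_sum fun χ _ => ?_
        exact mul_le_mul_of_nonneg_left (prof_Gop_iter hρ y p χ) (norm_nonneg _)
    _ = (1 / (Fintype.card Y : ℝ)) ^ p * ∑ χ, ((adj^[p] (prof ρ y)) χ) ^ 2 := by
        have h1 : ∑ χ, prof ρ y χ * (adj^[2 * p] (prof ρ y)) χ =
            ∑ χ, ((adj^[p] (prof ρ y)) χ) ^ 2 := by
          rw [two_mul, Function.iterate_add_apply, adj_iter_symm]
          exact Finset.sum_congr rfl fun χ _ => (sq _).symm
        rw [← h1, Finset.mul_sum]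
        exact Finset.sum_congr rfl fun χ _ => by ring
    _ ≤ (1 / (Fintype.card Y : ℝ)) ^ p * ((4 * (Fintype.card Y : ℝ)) ^ p *
          ((p + 2).factorial / 2) * ∑ χ, (prof ρ y χ) ^ 2) := by
        refine mul_le_mul_of_nonneg_left (adj_iter_norm hsupp p) (by positivity)
    _ = 4 ^ p * ((p + 2).factorial / 2) * ‖y‖ ^ 2 := by
        rw [norm_sq_eq_sum hρ y]
        have : (1 / (Fintype.card Y : ℝ)) ^ p * (4 * (Fintype.card Y : ℝ)) ^ p = 4 ^ p := by
          rw [← mul_pow]; congr 1; field_simp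
        rw [← this]
        simp only [prof]
        ring

end

end Vale.Agent.P162
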