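import Vale.Agent.Lib.P162.LevelDefs
import Vale.Agent.Lib.P162.Expo

/-!
# P162: the star bound and the level bound for the Laplacian
-/

namespace Vale.Agent.P162

open scoped RealInnerProductSpace

noncomputable section

variable {X : Type*} [DecidableEq X]
variable {V : Type*} [NormedAddCommGroup V] [InnerProductSpace ℝ V]
variable {ρ : Equiv.Perm X →* (V →L[ℝ] V)}

omit [DecidableEq X] in
lemma fixB_anti {B C : Finset X} (h : B ⊆ C) : fixB ρ C ≤ fixB ρ B := by
  intro v hv g hg
  exact hv g fun x hx => hg x fun hxB => hx (h hxB)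

omit [DecidableEq X] in
lemma fixB_singleton (x : X) (v : V) : v ∈ fixB ρ {x} := by
  intro g hg
  have : g = 1 := by
    ext y
    by_cases hy : y = x
    · subst hy
      by_contra hne
      have h1 : g (g y) = g y := hg (g y) (by simpa using hne)
      exact hne (g.injective h1)
    · exact hg y (by simpa using hy)
  rw [this, map_one]
  rfl

omit [DecidableEq X] in
lemma fixB_empty (v : V) : v ∈ fixB ρ ∅ := by
  intro g hg
  have : g = 1 := by
    ext y
    exact hg y (by simp)
  rw [this, map_one]
  rfl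

/-- symmetrisation: adding one point to the set of symmetry -/
lemma symm_mem {C : Finset X} {k : X} (hk : k ∉ C) {v : V} (hv : v ∈ fixB ρ C) :
    ∑ l ∈ insert k C, ρ (Equiv.swap l k) v ∈ fixB ρ (insert k C) := by
  intro g hg
  rw [map_sum]
  have hmem : ∀ x, x ∈ insert k C → g x ∈ insert k C := by
    intro x hx
    by_contra hne
    have h1 : g (g x) = g x := hg (g x) hne
    exact hne ((g.injective h1).symm ▸ hx)
  have hmem' : ∀ x, x ∈ insert k C → g⁻¹ x ∈ insert k C := by
    intro x hx
    by_contra hne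
    have h1 : g (g⁻¹ x) = g⁻¹ x := hg (g⁻¹ x) hne
    have h2 : g (g⁻¹ x) = x := by simp
    rw [h2] at h1
    exact hne (h1 ▸ hx)
  refine Finset.sum_nbij' (fun x => g x) (fun x => g⁻¹ x) hmem hmem' (by simp) (by simp) ?_
  intro l hl
  have e : g * Equiv.swap l k = Equiv.swap (g l) k * (Equiv.swap (g l) k * (g * Equiv.swap l k)) := by
    rw [← mul_assoc, Equiv.swap_mul_self, one_mul]
  rw [← map_mul_apply', e, map_mul_apply']
  congr 1
  refine hv _ ?_
  intro x hx
  by_cases hxk : x = k
  · subst hxk
    simp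
  · have hx' : x ∉ insert k C := by
      simp [hx, hxk]
    have hxl : x ≠ l := by
      rintro rfl
      exact hx' hl
    have hgx : g x = x := hg x hx'
    have hxgl : x ≠ g l := by
      rintro rfl
      exact hx' (hmem _ hl)
    simp only [Equiv.Perm.mul_apply]
    rw [Equiv.swap_apply_of_ne_of_ne hxl hxk, hgx, Equiv.swap_apply_of_ne_of_ne hxgl hxk]

/-- the star sum -/
lemma star_comm {G : Finset X} {w : X} (g : Equiv.Perm X) (hg : ∀ x, x ∉ G.erase w → g x = x)
    (v : V) : ∑ k ∈ G.erase w, ρ (Equiv.swap k w) (ρ g v) =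
      ρ g (∑ k ∈ G.erase w, ρ (Equiv.swap k w) v) := by
  rw [map_sum]
  have hw : g w = w := hg w (by simp)
  have hmem : ∀ x, x ∈ G.erase w → g x ∈ G.erase w := by
    intro x hx
    by_contra hne
    have h1 : g (g x) = g x := hg (g x) hne
    exact hne ((g.injective h1).symm ▸ hx)
  have hmem' : ∀ x, x ∈ G.erase w → g⁻¹ x ∈ G.erase w := by
    intro x hx
    by_contra hne
    have h1 : g (g⁻¹ x) = g⁻¹ x := hg (g⁻¹ x) hne
    have h2 : g (g⁻¹ x) = x := by simp
    rw [h2] at h1
    exact hne (h1 ▸ hx)
  symm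
  refine Finset.sum_nbij' (fun x => g x) (fun x => g⁻¹ x) hmem hmem' (by simp) (by simp) ?_
  intro l hl
  rw [← map_mul_apply', ← map_mul_apply', Equiv.mul_swap_eq_swap_mul, hw]

/-- The star bound: eigenvalues of the sum of the transpositions `(k w)`, `k ∈ G`, `k ≠ w`, on an
invariant subspace without vectors fixed by the permutations of `b + 1` points. -/
theorem star_bound (hρ : Orth ρ) (b : ℕ) : ∀ (N : ℕ) (G : Finset X), G.card = N →
    ∀ w ∈ G, ∀ U : Submodule ℝ V,
    (∀ g : Equiv.Perm X, (∀ x, x ∉ G → g x = x) → ∀ v ∈ U, ρ g v ∈ U) →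
    (∀ D : Finset X, D ⊆ G → b + 1 ≤ D.card → ∀ v ∈ U, v ∈ fixB ρ D → v = 0) →
    ∀ v ∈ U, v ≠ 0 → ∀ c : ℝ, ∑ k ∈ G.erase w, ρ (Equiv.swap k w) v = c • v →
    c ≤ (b : ℝ) - 1 := by
  intro N
  induction N using Nat.strong_induction_on with
  | _ N ih =>
  intro G hGN w hw U hU hD v₀ hv₀ hne₀ c hc₀
  by_cases hemp : G.erase w = ∅
  · -- trivial case
    rw [hemp, Finset.sum_empty] at hc₀
    have hc0 : c = 0 := by
      rcases smul_eq_zero.mp hc₀.symm with h | h
      · exact h
      · exact absurd h hne₀
    have hb : 1 ≤ b := by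
      by_contra hb
      have hb0 : b = 0 := by omega
      exact hne₀ (hD {w} (by simpa using hw) (by simp [hb0]) v₀ hv₀ (fixB_singleton w v₀))
    rw [hc0]
    have : (1:ℝ) ≤ b := by exact_mod_cast hb
    linarith
  · obtain ⟨x₀, hx₀⟩ := Finset.nonempty_iff_ne_empty.mpr hemp
    classical
    -- the family of symmetric sets
    set F : Finset (Finset X) := (G.erase w).powerset.filter
      (fun C => C.Nonempty ∧ ∃ v ∈ U, v ≠ 0 ∧ ∑ k ∈ G.erase w, ρ (Equiv.swap k w) v = c • v ∧
        v ∈ fixB ρ C) with hF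
    have hFne : F.Nonempty := by
      refine ⟨{x₀}, ?_⟩
      rw [hF, Finset.mem_filter]
      exact ⟨by simpa using hx₀, Finset.singleton_nonempty _, v₀, hv₀, hne₀, hc₀,
        fixB_singleton _ _⟩
    obtain ⟨C, hCF, hCmax⟩ := Finset.exists_max_image F Finset.card hFne
    rw [hF, Finset.mem_filter] at hCF
    obtain ⟨hCG, hCne, v, hvU, hv0, hvc, hvC⟩ := hCF
    rw [Finset.mem_powerset] at hCG
    have hwC : w ∉ C := fun h => by simpa using hCG h
    -- maximality
    have hmax : ∀ k ∈ G.erase w, k ∉ C → ∑ l ∈ C, ρ (Equiv.swap l k) v = - v := by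
      intro k hk hkC
      have hkw : k ≠ w := (Finset.mem_erase.mp hk).1
      have hmem := symm_mem hkC hvC
      have hsub : insert k C ⊆ G.erase w := Finset.insert_subset hk hCG
      set v' := ∑ l ∈ insert k C, ρ (Equiv.swap l k) v with hv'
      have hsw : ∀ l ∈ insert k C, ∀ x, x ∉ G.erase w → Equiv.swap l k x = x := by
        intro l hl x hx
        refine Equiv.swap_apply_of_ne_of_ne ?_ ?_
        · rintro rfl
          exact hx (hsub hl)
        · rintro rfl
          exact hx hk
      have hv'U : v' ∈ U := by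
        refine Submodule.sum_mem _ fun l hl => hU _ (fun x hx => ?_) _ hvU
        exact hsw l hl x fun h => hx (Finset.mem_of_mem_erase h)
      have hv'c : ∑ k ∈ G.erase w, ρ (Equiv.swap k w) v' = c • v' := by
        simp only [hv', map_sum]
        rw [Finset.sum_comm, Finset.smul_sum]
        refine Finset.sum_congr rfl fun l hl => ?_
        rw [star_comm _ (hsw l hl), hvc, map_smul]
      have hv'0 : v' = 0 := by
        by_contra hne
        have hin : insert k C ∈ F := by
          rw [hF, Finset.mem_filter]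
          exact ⟨Finset.mem_powerset.mpr hsub, Finset.insert_nonempty _ _, v', hv'U, hne, hv'c,
            hmem⟩
        have := hCmax _ hin
        rw [Finset.card_insert_of_notMem hkC] at this
        omega
      rw [hv', Finset.sum_insert hkC, Equiv.swap_self] at hv'0
      have h1 : ρ (Equiv.refl X) v = v := by
        have : (Equiv.refl X : Equiv.Perm X) = 1 := rfl
        rw [this, map_one]; rfl
      rw [h1] at hv'0
      exact eq_neg_of_add_eq_zero_right hv'0
    -- the symmetrised vector at `w`
    set u := ∑ l ∈ insert w C, ρ (Equiv.swap l w) v with hu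
    have huC : u ∈ fixB ρ (insert w C) := symm_mem hwC hvC
    have huU : u ∈ U := by
      refine Submodule.sum_mem _ fun l hl => hU _ (fun x hx => ?_) _ hvU
      refine Equiv.swap_apply_of_ne_of_ne ?_ ?_
      · rintro rfl
        rcases Finset.mem_insert.mp hl with h | h
        · exact hx (h ▸ hw)
        · exact hx (Finset.mem_of_mem_erase (hCG h))
      · rintro rfl
        exact hx hw
    have husw : ∀ l ∈ insert w C, ρ (Equiv.swap l w) u = u := by
      intro l hl
      refine huC _ fun x hx => ?_
      refine Equiv.swap_apply_of_ne_of_ne ?_ ?_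
      · rintro rfl
        exact hx hl
      · rintro rfl
        exact hx (Finset.mem_insert_self _ _)
    have hrefl : ρ (Equiv.swap w w) v = v := by
      rw [Equiv.swap_self]
      have : (Equiv.refl X : Equiv.Perm X) = 1 := rfl
      rw [this, map_one]; rfl
    have hu2 : u = v + ∑ l ∈ C, ρ (Equiv.swap l w) v := by
      rw [hu, Finset.sum_insert hwC, hrefl]
    by_cases hu0 : u = 0
    · -- reduce to the complement of `C`
      have h1 : ∑ l ∈ C, ρ (Equiv.swap l w) v = - v := by
        rw [hu2] at hu0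
        exact eq_neg_of_add_eq_zero_right hu0
      have hsplit : ∑ k ∈ (G \ C).erase w, ρ (Equiv.swap k w) v = (c + 1) • v := by
        have e : (G \ C).erase w = (G.erase w) \ C := by
          ext x; simp only [Finset.mem_erase, Finset.mem_sdiff]; tauto
        have h2 := Finset.sum_sdiff hCG (f := fun k => ρ (Equiv.swap k w) v)
        rw [h1, hvc] at h2
        rw [e, add_smul, one_smul]
        rw [← h2]
        abel
      have hcard : (G \ C).card < N := by
        rw [← hGN]
        refine Finset.card_lt_card ?_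
        rw [Finset.ssubset_iff_of_subset Finset.sdiff_subset]
        obtain ⟨x, hx⟩ := hCne
        exact ⟨x, Finset.mem_of_mem_erase (hCG hx), by simp [hx]⟩
      have h3 := ih _ hcard (G \ C) rfl w (Finset.mem_sdiff.mpr ⟨hw, hwC⟩) (U ⊓ fixB ρ C)
        ?_ ?_ v ⟨hvU, hvC⟩ hv0 (c + 1) hsplit
      · linarith
      · rintro g hg v ⟨hvU, hvC⟩
        refine ⟨hU g (fun x hx => hg x fun h => hx (Finset.sdiff_subset h)) v hvU, ?_⟩
        intro h hh
        have hcomm : h * g = g * h := by
          ext x
          simp only [Equiv.Perm.mul_apply]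
          by_cases hx : x ∈ C
          · have h1 : g x = x := hg x (by simp [hx])
            have h2 : h x ∈ C := by
              by_contra hne
              have h1 : h (h x) = h x := hh (h x) hne
              exact hne ((h.injective h1).symm ▸ hx)
            rw [h1, hg (h x) (by simp [h2])]
          · rw [hh x hx]
            by_cases hgx : g x ∈ C
            · have h1 : g (g x) = g x := hg (g x) (by simp [hgx])
              exact absurd ((g.injective h1) ▸ hgx) hx
            · exact hh _ hgx
        rw [← map_mul_apply', hcomm, map_mul_apply', hvC h hh]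
      · rintro D hDG hDb v ⟨hvU, -⟩ hvD
        exact hD D (hDG.trans Finset.sdiff_subset) hDb v hvU hvD
    · -- `c = |C|`
      have hin : ⟪u, v⟫ * ((C.card : ℝ) + 1) = ‖u‖ ^ 2 := by
        have : ⟪u, u⟫ = ((C.card : ℝ) + 1) * ⟪u, v⟫ := by
          conv_lhs => rw [hu, inner_sum]
          rw [Finset.sum_congr rfl (g := fun _ => ⟪u, v⟫)]
          · rw [Finset.sum_const, Finset.card_insert_of_notMem hwC, nsmul_eq_mul]
            push_cast
            ring
          · intro l hl
            show ⟪u, ρ (Equiv.swap l w) v⟫ = ⟪u, v⟫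
            rw [← swap_symm hρ, husw l hl]
        rw [real_inner_self_eq_norm_sq] at this
        rw [this]; ring
      have hpos : (0:ℝ) < ⟪u, v⟫ := by
        have h1 : 0 < ‖u‖ ^ 2 := by positivity
        have h2 : (0:ℝ) < (C.card : ℝ) + 1 := by positivity
        rw [← hin] at h1
        exact pos_of_mul_pos_left h1 h2.le
      have hcu : c * ⟪u, v⟫ = C.card * ⟪u, v⟫ := by
        have h2 := Finset.sum_sdiff hCG (f := fun k => ρ (Equiv.swap k w) v)
        rw [hvc] at h2
        have h3 : c * ⟪u, v⟫ = ⟪u, c • v⟫ := by rw [real_inner_smul_right]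
        rw [h3, ← h2, inner_add_right, inner_sum, inner_sum]
        have h4 : ∑ k ∈ (G.erase w) \ C, ⟪u, ρ (Equiv.swap k w) v⟫ = 0 := by
          refine Finset.sum_eq_zero fun k hk => ?_
          rw [Finset.mem_sdiff] at hk
          have hkw : k ≠ w := (Finset.mem_erase.mp hk.1).1
          rw [hu2, inner_add_left, sum_inner]
          have h5 : ∀ l ∈ C, ⟪ρ (Equiv.swap l w) v, ρ (Equiv.swap k w) v⟫ =
              ⟪ρ (Equiv.swap l k) v, ρ (Equiv.swap k w) v⟫ := by
            intro l hl
            have hlk : l ≠ k := by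
              rintro rfl
              exact hk.2 hl
            have hlw : l ≠ w := by
              rintro rfl
              exact hwC hl
            rw [← swap_symm hρ, ← map_mul_apply', Equiv.mul_swap_eq_swap_mul,
              Equiv.swap_apply_of_ne_of_ne hlk hlw, Equiv.swap_apply_right, map_mul_apply',
              swap_symm hρ, real_inner_comm]
          rw [Finset.sum_congr rfl h5, ← sum_inner, hmax k hk.1 hk.2, inner_neg_left]
          ring
        rw [h4, zero_add, Finset.sum_congr rfl (g := fun _ => ⟪u, v⟫)]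
        · rw [Finset.sum_const, nsmul_eq_mul]
        · intro l hl
          show ⟪u, ρ (Equiv.swap l w) v⟫ = ⟪u, v⟫
          rw [← swap_symm hρ, husw l (Finset.mem_insert_of_mem hl)]
      have hcC : c = C.card := mul_right_cancel₀ hpos.ne' hcu
      have hle : C.card + 1 ≤ b := by
        by_contra hlt
        refine hu0 (hD (insert w C) ?_ ?_ u huU huC)
        · exact Finset.insert_subset hw (hCG.trans (Finset.erase_subset _ _))
        · rw [Finset.card_insert_of_notMem hwC]; omega
      rw [hcC]
      have : ((C.card + 1 : ℕ) : ℝ) ≤ b := by exact_mod_cast hle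
      push_cast at this
      linarith

/-- a symmetric operator is bounded on an invariant subspace by its eigenvalues -/
lemma le_of_eigen [FiniteDimensional ℝ V] (T : V →ₗ[ℝ] V)
    (hT : ∀ v w : V, ⟪T v, w⟫ = ⟪v, T w⟫) (U : Submodule ℝ V) (hU : ∀ v ∈ U, T v ∈ U) (β : ℝ)
    (h : ∀ v ∈ U, v ≠ 0 → ∀ c : ℝ, T v = c • v → c ≤ β) (v : V) (hv : v ∈ U) :
    ⟪v, T v⟫ ≤ β * ‖v‖ ^ 2 := by
  have hsym : (T.restrict hU).IsSymmetric := by
    intro x y
    exact hT x y
  set B := hsym.eigenvectorBasis rfl with hB
  set x : U := ⟨v, hv⟩ with hx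
  have h1 : ⟪v, T v⟫ = ⟪x, (T.restrict hU) x⟫ := rfl
  have h2 : ‖v‖ = ‖x‖ := rfl
  rw [h1, h2, ← B.sum_inner_mul_inner, ← real_inner_self_eq_norm_sq, ← B.sum_inner_mul_inner,
    Finset.mul_sum]
  refine Finset.sum_le_sum fun i _ => ?_
  have h3 : ⟪B i, (T.restrict hU) x⟫ = hsym.eigenvalues rfl i * ⟪B i, x⟫ := by
    rw [← hsym, hB, hsym.apply_eigenvectorBasis, real_inner_smul_left]
    rfl
  have h4 : hsym.eigenvalues rfl i ≤ β := by
    refine h (B i : V) (B i).2 ?_ _ ?_
    · intro h0
      have h5 : B i = 0 := Subtype.ext h0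
      have h6 := B.orthonormal.1 i
      rw [h5, norm_zero] at h6
      exact zero_ne_one h6
    · have h5 := hsym.apply_eigenvectorBasis rfl i
      have h6 := congrArg (Subtype.val) h5
      exact h6
  rw [h3, real_inner_comm x (B i)]
  have h5 : (0:ℝ) ≤ ⟪x, B i⟫ * ⟪x, B i⟫ := mul_self_nonneg _
  nlinarith

section level

variable [Fintype X]

/-- the vectors of level at least `k` -/
def levelSub (ρ : Equiv.Perm X →* (V →L[ℝ] V)) (k : ℕ) : Submodule ℝ V where
  carrier := {w | LevelGE ρ Finset.univ k w}
  add_mem' := by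
    intro v w hv hw B hB hc u hu
    rw [inner_add_right, hv B hB hc u hu, hw B hB hc u hu, add_zero]
  zero_mem' := by
    intro B _ _ u _
    rw [inner_zero_right]
  smul_mem' := by
    intro c v hv B hB hc u hu
    rw [real_inner_smul_right, hv B hB hc u hu, mul_zero]

omit [DecidableEq X] in
lemma levelSub_inv (hρ : Orth ρ) (k : ℕ) (g : Equiv.Perm X) {v : V} (hv : v ∈ levelSub ρ k) :
    ρ g v ∈ levelSub ρ k := by
  intro B _ hc u hu
  rw [real_inner_comm, orth_adj hρ, real_inner_comm]
  refine hv (B.map (g⁻¹ : Equiv.Perm X).toEmbedding) (Finset.subset_univ _)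
    (by rwa [Finset.card_map]) _ ?_
  intro h hh
  have e : h * g⁻¹ = g⁻¹ * (g * h * g⁻¹) := by group
  rw [← map_mul_apply', e, map_mul_apply', hu (g * h * g⁻¹) ?_]
  intro x hx
  have h1 : h (g⁻¹ x) = g⁻¹ x := by
    refine hh _ fun hmem => hx ?_
    rw [Finset.mem_map] at hmem
    obtain ⟨y, hy, hyx⟩ := hmem
    have : y = x := (g⁻¹ : Equiv.Perm X).injective hyx
    exact this ▸ hy
  simp only [Equiv.Perm.mul_apply]
  rw [h1]
  simp

/-- The level bound: on vectors of level at least `k` the Laplacian is at least `k / 2`. -/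
theorem lap_level' [FiniteDimensional ℝ V] (hρ : Orth ρ) (k : ℕ) (w : V)
    (hw : LevelGE ρ Finset.univ k w) : (k:ℝ) / 2 * ‖w‖ ^ 2 ≤ ⟪w, lap ρ w⟫ := by
  set n := Fintype.card X with hn
  rcases Nat.eq_zero_or_pos k with hk0 | hk0
  · subst hk0
    simpa using inner_lap_nonneg hρ w
  by_cases hkn : n < k + 1
  · -- then `w = 0`
    have h0 : w = 0 := by
      rcases Nat.eq_zero_or_pos n with h0 | h0
      · have := hw ∅ (by simp) (by rw [Finset.card_univ, ← hn, Finset.card_empty]; omega) w
          (fixB_empty w)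
        exact inner_self_eq_zero.mp this
      · have hne : Nonempty X := Fintype.card_pos_iff.mp h0
        obtain ⟨x⟩ := hne
        have := hw {x} (by simp) (by rw [Finset.card_univ, ← hn, Finset.card_singleton]; omega) w
          (fixB_singleton x w)
        exact inner_self_eq_zero.mp this
    rw [h0]
    simp
  · push Not at hkn
    have hnpos : 0 < n := by omega
    have hnR : (0:ℝ) < n := by exact_mod_cast hnpos
    obtain ⟨b, hb⟩ : ∃ b, n = k + b := ⟨n - k, by omega⟩
    have hstar : ∀ a : X, ⟪w, ∑ x ∈ Finset.univ.erase a, ρ (Equiv.swap x a) w⟫ ≤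
        ((b:ℝ) - 1) * ‖w‖ ^ 2 := by
      intro a
      have h1 := le_of_eigen
        ((∑ x ∈ Finset.univ.erase a, ρ (Equiv.swap x a) : V →L[ℝ] V) : V →ₗ[ℝ] V) ?_
        (levelSub ρ k) ?_ ((b:ℝ) - 1) ?_ w hw
      · simpa [ContinuousLinearMap.coe_coe, _root_.sum_apply] using h1
      · intro v w
        simp only [ContinuousLinearMap.coe_coe, _root_.sum_apply, sum_inner, inner_sum,
          swap_symm hρ]
      · intro v hv
        simp only [ContinuousLinearMap.coe_coe, _root_.sum_apply]
        exact Submodule.sum_mem _ fun x _ => levelSub_inv hρ k _ hv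
      · intro v hv hv0 c hc
        simp only [ContinuousLinearMap.coe_coe, _root_.sum_apply] at hc
        refine star_bound hρ b _ Finset.univ rfl a (Finset.mem_univ a) (levelSub ρ k)
          (fun g _ v hv => levelSub_inv hρ k g hv) ?_ v hv hv0 c hc
        intro D hD hcard v hv hvD
        have := hv D hD (by rw [Finset.card_univ, ← hn]; omega) v hvD
        exact inner_self_eq_zero.mp this
    have hexp : ⟪w, lap ρ w⟫ = (1 / (2 * (n:ℝ))) *
        ∑ a : X, (((n:ℝ) - 1) * ‖w‖ ^ 2 - ⟪w, ∑ x ∈ Finset.univ.erase a, ρ (Equiv.swap x a) w⟫) := by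
      simp only [lap, _root_.smul_apply, _root_.sum_apply, real_inner_smul_right, ← hn]
      congr 1
      rw [Finset.sum_comm, inner_sum]
      refine Finset.sum_congr rfl fun a _ => ?_
      rw [← Finset.add_sum_erase _ _ (Finset.mem_univ a)]
      have h1 : (1 - ρ (Equiv.swap a a)) w = 0 := by
        rw [Equiv.swap_self]
        have : (Equiv.refl X : Equiv.Perm X) = 1 := rfl
        rw [this, map_one, sub_self]; rfl
      rw [h1, zero_add]
      simp only [_root_.sub_apply, one_apply_eq_self, Finset.sum_sub_distrib, inner_sub_right]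
      congr 1
      rw [Finset.sum_const, Finset.card_erase_of_mem (Finset.mem_univ a), Finset.card_univ, ← hn,
        ← Nat.cast_smul_eq_nsmul ℝ, real_inner_smul_right, real_inner_self_eq_norm_sq,
        Nat.cast_sub (by omega)]
      simp
    rw [hexp]
    have hsum : ∑ a : X, ((k:ℝ) * ‖w‖ ^ 2) ≤
        ∑ a : X, (((n:ℝ) - 1) * ‖w‖ ^ 2 -
          ⟪w, ∑ x ∈ Finset.univ.erase a, ρ (Equiv.swap x a) w⟫) := by
      refine Finset.sum_le_sum fun a _ => ?_
      have := hstar a
      have h2 : (n:ℝ) = k + b := by rw [hb]; push_cast; ring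
      rw [h2]
      nlinarith
    rw [Finset.sum_const, Finset.card_univ, ← hn, nsmul_eq_mul] at hsum
    calc (k:ℝ) / 2 * ‖w‖ ^ 2 = (1 / (2 * (n:ℝ))) * ((n:ℝ) * ((k:ℝ) * ‖w‖ ^ 2)) := by
          field_simp
      _ ≤ _ := mul_le_mul_of_nonneg_left hsum (by positivity)

theorem lap_level [FiniteDimensional ℝ V] (hρ : Orth ρ) (k : ℕ) (w : V)
    (hw : LevelGE ρ Finset.univ k w) : (k:ℝ) / 4 * ‖w‖ ^ 2 ≤ ⟪w, lap ρ w⟫ := by
  refine le_trans ?_ (lap_level' hρ k w hw)
  have h1 : (0:ℝ) ≤ (k:ℝ) * ‖w‖ ^ 2 := by positivity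
  nlinarith

end level

end

end Vale.Agent.P162
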