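import Vale.Agent.Lib.P162.Basic

/-!
# P162: levels of a representation of `Perm X` (definitions)
-/

namespace Vale.Agent.P162

open scoped RealInnerProductSpace

noncomputable section

variable {X : Type*} [DecidableEq X]
variable {V : Type*} [NormedAddCommGroup V] [InnerProductSpace ℝ V]

/-- The vectors fixed by all the permutations that fix every point outside `B`. -/
def fixB (ρ : Equiv.Perm X →* (V →L[ℝ] V)) (B : Finset X) : Submodule ℝ V where
  carrier := {v | ∀ g : Equiv.Perm X, (∀ x, x ∉ B → g x = x) → ρ g v = v}
  add_mem' := by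
    intro v w hv hw g hg
    rw [map_add, hv g hg, hw g hg]
  zero_mem' := by
    intro g _
    rw [map_zero]
  smul_mem' := by
    intro c v hv g hg
    rw [map_smul, hv g hg]

/-- `w` has `A`-level at least `k`: it is orthogonal to all the vectors fixed by the
permutations supported in `B`, for every `B ⊆ A` with `|B| ≥ |A| + 1 - k`. -/
def LevelGE (ρ : Equiv.Perm X →* (V →L[ℝ] V)) (A : Finset X) (k : ℕ) (w : V) : Prop :=
  ∀ B : Finset X, B ⊆ A → A.card + 1 ≤ B.card + k → ∀ v ∈ fixB ρ B, ⟪v, w⟫ = 0

end

end Vale.Agent.P162
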