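import Vale.Agent.Lib.P162.ThorpPass
import Vale.Agent.Lib.P162.Defs

/-!
# P162: the counting lower bound for the mixing time
-/

namespace Vale.Agent.P162

noncomputable section

open Classical in
/-- the support of a function on a finite set -/
def supp {G : Type*} [Fintype G] (μ : G → ℝ) : Finset G := Finset.univ.filter fun g => μ g ≠ 0

lemma mem_supp {G : Type*} [Fintype G] {μ : G → ℝ} {g : G} : g ∈ supp μ ↔ μ g ≠ 0 := by
  simp [supp]

lemma supp_conv {G : Type*} [Group G] [Fintype G] (μ ν : G → ℝ) :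
    (supp (conv μ ν)).card ≤ (supp μ).card * (supp ν).card := by
  classical
  rw [← Finset.card_product]
  refine (Finset.card_le_card ?_).trans
    (Finset.card_image_le (s := supp μ ×ˢ supp ν) (f := fun p => p.1 * p.2))
  intro g hg
  rw [mem_supp, conv] at hg
  obtain ⟨h, -, hh⟩ := Finset.exists_ne_zero_of_sum_ne_zero hg
  rw [Finset.mem_image]
  refine ⟨(h, h⁻¹ * g), ?_, by simp⟩
  rw [Finset.mem_product]
  exact ⟨mem_supp.2 (left_ne_zero_of_mul hh), mem_supp.2 (right_ne_zero_of_mul hh)⟩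

lemma supp_thorpLaw (m : ℕ) : (supp (thorpLaw m)).card ≤ 2 ^ m := by
  classical
  have h1 : ∀ g ∈ supp (thorpLaw m), ∃ c : Fin m → Bool, IsThorp m c g := by
    intro g hg
    rw [mem_supp, thorpLaw] at hg
    by_contra hne
    apply hg
    have : IsEmpty {c : Fin m → Bool // IsThorp m c g} := ⟨fun c => hne ⟨c.1, c.2⟩⟩
    rw [Nat.card_of_isEmpty]
    simp
  choose! f hf using h1
  have h2 : (supp (thorpLaw m)).card ≤ (Finset.univ : Finset (Fin m → Bool)).card := by
    refine Finset.card_le_card_of_injOn f (fun g _ => Finset.mem_univ _) ?_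
    intro g hg g' hg' h
    have h3 := hf g hg
    have h4 := hf g' hg'
    rw [h] at h3
    exact Pass.isThorp_unique h3 h4
  simpa using h2

lemma supp_convPow (m t : ℕ) : (supp (convPow (thorpLaw m) t)).card ≤ 2 ^ (m * t) := by
  induction t with
  | zero =>
    refine (Finset.card_le_card (t := {1}) ?_).trans (by simp)
    intro g hg
    rw [mem_supp, convPow] at hg
    by_contra h
    rw [Finset.mem_singleton] at h
    exact hg (if_neg h)
  | succ t ih =>
    rw [convPow]
    refine (supp_conv _ _).trans ?_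
    rw [Nat.mul_succ, pow_add, mul_comm (2 ^ (m * t))]
    exact Nat.mul_le_mul (supp_thorpLaw m) ih

lemma tv_supp {G : Type*} [Fintype G] [Nonempty G] (μ : G → ℝ) (h : tvUnif μ ≤ 1 / 4) :
    Fintype.card G ≤ 2 * (supp μ).card := by
  classical
  have hG : (0:ℝ) < Fintype.card G := by exact_mod_cast Fintype.card_pos
  have h1 : ∑ g ∈ (supp μ)ᶜ, |μ g - 1 / (Fintype.card G : ℝ)| ≤
      ∑ g : G, |μ g - 1 / (Fintype.card G : ℝ)| :=
    Finset.sum_le_sum_of_subset_of_nonneg (Finset.subset_univ _) fun _ _ _ => abs_nonneg _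
  have h2 : ∑ g ∈ (supp μ)ᶜ, |μ g - 1 / (Fintype.card G : ℝ)| =
      ((supp μ)ᶜ).card * (1 / (Fintype.card G : ℝ)) := by
    rw [← nsmul_eq_mul, ← Finset.sum_const]
    refine Finset.sum_congr rfl fun g hg => ?_
    rw [Finset.mem_compl, mem_supp, not_not] at hg
    rw [hg, zero_sub, abs_neg, abs_of_nonneg (by positivity)]
  rw [h2, Finset.card_compl, Nat.cast_sub (Finset.card_le_univ _), mul_one_div] at h1
  rw [tvUnif] at h
  have h3 : ((Fintype.card G : ℝ) - (supp μ).card) / Fintype.card G ≤ 1 / 2 := by linarith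
  rw [div_le_iff₀ hG] at h3
  have h4 : (Fintype.card G : ℝ) ≤ 2 * (supp μ).card := by linarith
  exact_mod_cast h4

lemma fact_lower (m : ℕ) (hm : 2 ≤ m) : 2 * m ^ m ≤ (2 * m).factorial := by
  have h1 : m.factorial * (m + 1) ^ m ≤ (m + m).factorial := Nat.factorial_mul_pow_le_factorial
  have h2 : 2 ≤ m.factorial := by
    calc 2 = Nat.factorial 2 := rfl
      _ ≤ m.factorial := Nat.factorial_le hm
  have h3 : m ^ m ≤ (m + 1) ^ m := Nat.pow_le_pow_left (Nat.le_succ m) m
  rw [two_mul m]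
  exact (Nat.mul_le_mul h2 h3).trans h1

/-- at least `e` shuffles are needed for a deck of `2 * 2 ^ e` cards -/
theorem thorp_lower (e t : ℕ) (h : tvUnif (convPow (thorpLaw (2 ^ e)) t) ≤ 1 / 4) : e ≤ t := by
  rcases Nat.eq_zero_or_pos e with rfl | he
  · exact Nat.zero_le _
  have h1 := tv_supp _ h
  rw [Fintype.card_perm, Fintype.card_fin] at h1
  have h2 := supp_convPow (2 ^ e) t
  have h3 := fact_lower (2 ^ e) (by
    calc 2 = 2 ^ 1 := rfl
      _ ≤ 2 ^ e := Nat.pow_le_pow_right (by norm_num) he)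
  have h4 : (2 ^ e) ^ (2 ^ e) ≤ 2 ^ (2 ^ e * t) := by
    have : 2 * (2 ^ e) ^ (2 ^ e) ≤ 2 * 2 ^ (2 ^ e * t) :=
      (h3.trans h1).trans (Nat.mul_le_mul_left 2 h2)
    omega
  rw [← pow_mul] at h4
  have h5 : e * 2 ^ e ≤ 2 ^ e * t := (Nat.pow_le_pow_iff_right (by norm_num)).1 h4
  rw [mul_comm] at h5
  exact Nat.le_of_mul_le_mul_left h5 (by positivity)

end

end Vale.Agent.P162
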