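import Vale.Agent.Lib.P162.Key

/-!
# P162: the bound `‖G u‖² ≤ (4/m) ⟪u, L u⟫`
-/

namespace Vale.Agent.P162

open scoped RealInnerProductSpace

noncomputable section

variable {Y : Type*} [Fintype Y] [DecidableEq Y]
variable {V : Type*} [NormedAddCommGroup V] [InnerProductSpace ℝ V]
variable {ρ : Equiv.Perm (Bool × Y) →* (V →L[ℝ] V)}

section general

variable {X : Type*} [Fintype X] [DecidableEq X]
variable {σ : Equiv.Perm X →* (V →L[ℝ] V)}

omit [Fintype X] [DecidableEq X] in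
lemma inner_one_sub (hσ : Orth σ) (g : Equiv.Perm X) (u : V) :
    ⟪u, (1 - σ g) u⟫ = (1 / 2) * ‖σ g u - u‖ ^ 2 := by
  rw [@norm_sub_sq_real V, orth_norm hσ, _root_.sub_apply, inner_sub_right,
    one_apply_eq_self, real_inner_self_eq_norm_sq, real_inner_comm]
  ring

lemma inner_lap (hσ : Orth σ) (u : V) :
    ⟪u, lap σ u⟫ = (1 / (4 * (Fintype.card X : ℝ))) *
      ∑ a : X, ∑ b : X, ‖σ (Equiv.swap a b) u - u‖ ^ 2 := by
  simp only [lap, _root_.smul_apply, _root_.sum_apply, real_inner_smul_right, inner_sum,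
    inner_one_sub hσ, ← Finset.mul_sum]
  ring

lemma inner_lap_nonneg (hσ : Orth σ) (u : V) : 0 ≤ ⟪u, lap σ u⟫ := by
  rw [inner_lap hσ]
  positivity

end general

omit [Fintype Y] in
lemma norm_swap_eq (hρ : Orth ρ) {u : V} (hu : ∀ c : Y → Bool, ρ (flip c) u = u) {i j : Y}
    (hij : i ≠ j) (h h' : Bool) :
    ‖ρ (Equiv.swap (h, i) (h', j)) u - u‖ = ‖ρ (Equiv.swap (false, i) (false, j)) u - u‖ := by
  set c : Y → Bool := fun y => if y = i then h else if y = j then h' else false with hc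
  have hci : c i = h := by simp [hc]
  have hcj : c j = h' := by simp [hc, Ne.symm hij]
  have key : ρ (Equiv.swap (h, i) (h', j)) u = ρ (flip c) (ρ (Equiv.swap (false, i) (false, j)) u) := by
    rw [← map_mul_apply', flip_swap, map_mul_apply', hu]
    simp [hci, hcj]
  rw [key]
  conv_lhs => rw [← hu c, hu c]
  have : ρ (flip c) (ρ (Equiv.swap (false, i) (false, j)) u) - u =
      ρ (flip c) (ρ (Equiv.swap (false, i) (false, j)) u - u) := by
    rw [map_sub, hu]
  rw [this, orth_norm hρ]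

omit [Fintype Y] in
lemma norm_Yop_sq_le (hρ : Orth ρ) {u : V} (hu : ∀ c : Y → Bool, ρ (flip c) u = u) (i j : Y) :
    ‖Yop ρ i j u‖ ^ 2 ≤ 16 * ‖ρ (Equiv.swap (false, i) (false, j)) u - u‖ ^ 2 := by
  by_cases hij : i = j
  · subst hij
    rw [Yop_self hu]
    simp
  · set D := ‖ρ (Equiv.swap (false, i) (false, j)) u - u‖ with hD
    have h1 : ‖Yop ρ i j u‖ ≤ 4 * D := by
      have e : Yop ρ i j u = (ρ (Equiv.swap (false, i) (false, j)) u - u)
          + (ρ (Equiv.swap (true, i) (true, j)) u - u)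
          - (ρ (Equiv.swap (false, i) (true, j)) u - u)
          - (ρ (Equiv.swap (true, i) (false, j)) u - u) := by
        simp only [Yop, _root_.add_apply, _root_.sub_apply]
        abel
      rw [e]
      calc ‖_‖ ≤ ‖ρ (Equiv.swap (false, i) (false, j)) u - u‖
          + ‖ρ (Equiv.swap (true, i) (true, j)) u - u‖
          + ‖ρ (Equiv.swap (false, i) (true, j)) u - u‖
          + ‖ρ (Equiv.swap (true, i) (false, j)) u - u‖ := by
            refine (norm_sub_le _ _).trans ?_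
            gcongr
            refine (norm_sub_le _ _).trans ?_
            gcongr
            exact norm_add_le _ _
        _ = 4 * D := by
            rw [norm_swap_eq hρ hu hij true true, norm_swap_eq hρ hu hij false true,
              norm_swap_eq hρ hu hij true false, ← hD]
            ring
    have h2 : 0 ≤ ‖Yop ρ i j u‖ := norm_nonneg _
    nlinarith [norm_nonneg (Yop ρ i j u)]

omit [Fintype Y] in
lemma Yop_symm (i j : Y) : Yop ρ j i = Yop ρ i j := by
  simp only [Yop]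
  rw [Equiv.swap_comm (false, j) (false, i), Equiv.swap_comm (true, j) (true, i),
    Equiv.swap_comm (false, j) (true, i), Equiv.swap_comm (true, j) (false, i)]
  abel

lemma Yop_eq_cmp {u : V} (hu : ∀ c : Y → Bool, ρ (flip c) u = u) (i j : Y) :
    cmp ρ (tog i (tog j ∅)) (Yop ρ i j u) = Yop ρ i j u := by
  have h : tog i (tog j (tog i (tog j (∅ : Finset Y)))) = ∅ := by
    rw [tog_comm j i (tog j ∅), tog_tog, tog_tog]
  rw [cmp_Yop, h, cmp_empty hu]

lemma inner_Yop_Yop (hρ : Orth ρ) {u : V} (hu : ∀ c : Y → Bool, ρ (flip c) u = u) (i j : Y) :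
    ∑ q : Y × Y, ⟪Yop ρ i j u, Yop ρ q.1 q.2 u⟫ = 2 * ‖Yop ρ i j u‖ ^ 2 := by
  by_cases hij : i = j
  · subst hij
    simp [Yop_self hu]
  · have hne : ((i, j) : Y × Y) ≠ (j, i) := fun h => hij (Prod.ext_iff.mp h).1
    rw [Fintype.sum_eq_add (i, j) (j, i) hne]
    · simp only [Yop_symm i j, real_inner_self_eq_norm_sq]
      ring
    · rintro ⟨k, l⟩ ⟨h1, h2⟩
      have hne' : tog i (tog j (∅ : Finset Y)) ≠ tog k (tog l ∅) := by
        intro he
        rcases tog_pair hij he with ⟨h3, h4⟩ | ⟨h3, h4⟩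
        · exact h1 (by rw [h3, h4])
        · exact h2 (by rw [h3, h4])
      simp only
      rw [← Yop_eq_cmp hu i j, ← Yop_eq_cmp hu k l]
      exact inner_cmp hρ hne' _ _

lemma norm_Gop_sq (hρ : Orth ρ) {u : V} (hu : ∀ c : Y → Bool, ρ (flip c) u = u) :
    ‖Gop ρ u‖ ^ 2 = (1 / (4 * (Fintype.card Y : ℝ))) ^ 2 *
      (2 * ∑ i : Y, ∑ j : Y, ‖Yop ρ i j u‖ ^ 2) := by
  have hm : (0:ℝ) ≤ 1 / (4 * (Fintype.card Y : ℝ)) := by positivity
  have h1 : Gop ρ u = (1 / (4 * (Fintype.card Y : ℝ))) • ∑ q : Y × Y, Yop ρ q.1 q.2 u := by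
    simp only [Gop, _root_.smul_apply, _root_.sum_apply, Fintype.sum_prod_type]
  rw [h1, norm_smul, mul_pow, Real.norm_of_nonneg hm]
  congr 1
  rw [← real_inner_self_eq_norm_sq, sum_inner]
  simp only [inner_sum]
  rw [Finset.sum_congr rfl fun q _ => inner_Yop_Yop hρ hu q.1 q.2, ← Finset.mul_sum,
    Fintype.sum_prod_type]

lemma norm_Gop_sq_le (hρ : Orth ρ) {u : V} (hu : ∀ c : Y → Bool, ρ (flip c) u = u) :
    ‖Gop ρ u‖ ^ 2 ≤ 4 / (Fintype.card Y : ℝ) * ⟪u, lap ρ u⟫ := by
  by_cases hm0 : (Fintype.card Y : ℝ) = 0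
  · rw [norm_Gop_sq hρ hu]; simp [hm0]
  have hm : (0:ℝ) < (Fintype.card Y : ℝ) := lt_of_le_of_ne (Nat.cast_nonneg _) (Ne.symm hm0)
  set S := ∑ i : Y, ∑ j : Y, ‖ρ (Equiv.swap (false, i) (false, j)) u - u‖ ^ 2 with hS
  have hL : ⟪u, lap ρ u⟫ = (1 / (4 * (2 * (Fintype.card Y : ℝ)))) * (4 * S) := by
    rw [inner_lap hρ]
    simp only [Fintype.sum_prod_type, Fintype.sum_bool, Fintype.card_prod, Fintype.card_bool,
      Nat.cast_mul, Nat.cast_ofNat]
    congr 1
    rw [hS, Finset.mul_sum, ← Finset.sum_add_distrib]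
    refine Finset.sum_congr rfl fun i _ => ?_
    rw [Finset.mul_sum, ← Finset.sum_add_distrib, ← Finset.sum_add_distrib,
      ← Finset.sum_add_distrib]
    refine Finset.sum_congr rfl fun j _ => ?_
    by_cases hij : i = j
    · subst hij
      have h1 : ∀ c : Bool × Y, ρ (Equiv.swap c c) u - u = 0 := by
        intro c
        have : ρ (Equiv.refl (Bool × Y)) = 1 := map_one ρ
        rw [Equiv.swap_self, this]; simp
      have hs : (Equiv.swap (false, i) (true, i) : Equiv.Perm (Bool × Y)) =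
          flip (fun j => decide (j = i)) := by
        ext ⟨a, b⟩
        all_goals
          by_cases hb : b = i <;> cases a <;>
            simp_all [Equiv.swap_apply_def, Prod.ext_iff]
      rw [h1, h1, Equiv.swap_comm (true, i) (false, i), hs, hu]
      simp
    · rw [norm_swap_eq hρ hu hij true true, norm_swap_eq hρ hu hij false true,
        norm_swap_eq hρ hu hij true false]
      ring
  have hG : ‖Gop ρ u‖ ^ 2 ≤ (1 / (4 * (Fintype.card Y : ℝ))) ^ 2 * (2 * (16 * S)) := by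
    rw [norm_Gop_sq hρ hu]
    have : ∑ i : Y, ∑ j : Y, ‖Yop ρ i j u‖ ^ 2 ≤ 16 * S := by
      rw [hS, Finset.mul_sum]
      refine Finset.sum_le_sum fun i _ => ?_
      rw [Finset.mul_sum]
      exact Finset.sum_le_sum fun j _ => norm_Yop_sq_le hρ hu i j
    gcongr
  refine hG.trans (le_of_eq ?_)
  rw [hL]
  field_simp
  ring

end

end Vale.Agent.P162
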