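import Vale.Agent.Lib.P162.Expo

/-!
# P162: the induction step
-/

namespace Vale.Agent.P162

open scoped RealInnerProductSpace

noncomputable section

variable {Y : Type*} [Fintype Y] [DecidableEq Y]
variable {V : Type*} [NormedAddCommGroup V] [InnerProductSpace ℝ V]

lemma act_mapDomain {X X' : Type*} [Fintype X] [DecidableEq X] [Fintype X'] [DecidableEq X']
    (ρ : Equiv.Perm X' →* (V →L[ℝ] V)) (φ : Equiv.Perm X →* Equiv.Perm X')
    (b : MonoidAlgebra ℝ (Equiv.Perm X)) :
    act ρ (MonoidAlgebra.mapDomain φ b) = act (ρ.comp φ) b := by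
  have h : (act ρ).comp (MonoidAlgebra.mapDomainAlgHom ℝ ℝ φ) = act (ρ.comp φ) := by
    apply MonoidAlgebra.algHom_ext
    · intro g
      simp [act]
    · ext
  have := congrArg (fun f => f b) h
  simpa using this

lemma act_coinAvg (ρ : Equiv.Perm (Bool × Y) →* (V →L[ℝ] V)) :
    act ρ (coinAvg Y) = cmp ρ ∅ := by
  simp only [coinAvg, act, cmp, map_smul, map_sum, MonoidAlgebra.lift_single, one_smul, sg,
    Finset.prod_empty]

/-- anything commuting with all the `σ g` commutes with `act σ b` -/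
lemma commute_act {X : Type*} [Fintype X] [DecidableEq X] (σ : Equiv.Perm X →* (V →L[ℝ] V))
    (T : V →L[ℝ] V) (hT : ∀ g, Commute T (σ g)) (b : MonoidAlgebra ℝ (Equiv.Perm X)) :
    Commute T (act σ b) := by
  induction b using MonoidAlgebra.induction_on with
  | of g => simpa [act] using hT g
  | add f g hf hg => rw [map_add]; exact hf.add_right hg
  | smul r f hf => rw [map_smul]; exact hf.smul_right r

omit [Fintype Y] in
lemma half_comm (g g' : Equiv.Perm Y) :
    Commute (half false g) (half true g') := by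
  show half false g * half true g' = half true g' * half false g
  ext ⟨a, b⟩
  all_goals cases a <;> simp [half]

omit [Fintype Y] in
lemma commute_halves (ρ : Equiv.Perm (Bool × Y) →* (V →L[ℝ] V)) (g g' : Equiv.Perm Y) :
    Commute ((ρ.comp (half false)) g) ((ρ.comp (half true)) g') :=
  (half_comm g g').map ρ

lemma commute_lap_left {ρ : Equiv.Perm (Bool × Y) →* (V →L[ℝ] V)} (g' : Equiv.Perm Y) :
    Commute (lap (ρ.comp (half false))) ((ρ.comp (half true)) g') := by
  unfold lap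
  refine Commute.smul_left ?_ _
  refine Commute.sum_left _ _ _ fun a _ => Commute.sum_left _ _ _ fun b _ => ?_
  exact (Commute.one_left _).sub_left (commute_halves ρ _ _)

lemma commute_lap_lap {ρ : Equiv.Perm (Bool × Y) →* (V →L[ℝ] V)} :
    Commute (lap (ρ.comp (half false))) (lap (ρ.comp (half true))) := by
  conv => rw [lap.eq_def (ρ.comp (half true))]
  refine Commute.smul_right ?_ _
  refine Commute.sum_right _ _ _ fun a _ => Commute.sum_right _ _ _ fun b _ => ?_
  exact (Commute.one_right _).sub_right (commute_lap_left _)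

lemma norm_cmp_empty_le {ρ : Equiv.Perm (Bool × Y) →* (V →L[ℝ] V)} (hρ : Orth ρ) (v : V) :
    ‖cmp ρ ∅ v‖ ^ 2 ≤ ‖v‖ ^ 2 := by
  rw [norm_sq_eq_sum hρ v]
  exact Finset.single_le_sum (f := fun χ => ‖cmp ρ χ v‖ ^ 2) (fun χ _ => sq_nonneg _)
    (Finset.mem_univ ∅)

theorem good_dbl {Y : Type} [Fintype Y] [DecidableEq Y] [Nonempty Y]
    (b : MonoidAlgebra ℝ (Equiv.Perm Y)) (c : ℝ) (hc : 0 ≤ c) (hc' : c ≤ 1 / 8)
    (hb : Good b c) : Good (dbl b) (c - 4 * c ^ 2 / (Fintype.card Y)) := by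
  intro V _ _ _ ρ hρ v
  set ρL := ρ.comp (half false) with hρL
  set ρR := ρ.comp (half true) with hρR
  have hoL : Orth ρL := fun g v w => hρ _ v w
  have hoR : Orth ρR := fun g v w => hρ _ v w
  set A := lap ρL with hA
  set D := lap ρR with hD
  set L := lap ρ with hL
  set G := Gop ρ with hG
  have hm : (0:ℝ) < (Fintype.card Y : ℝ) := by exact_mod_cast Fintype.card_pos
  set κ := 4 * c ^ 2 / (Fintype.card Y : ℝ) with hκ
  have hκ0 : 0 ≤ κ := by positivity
  have hsplit : L = (A + D) + G := lap_split ρ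
  have hAs : ∀ v w : V, ⟪A v, w⟫ = ⟪v, A w⟫ := lap_symm hoL
  have hDs : ∀ v w : V, ⟪D v, w⟫ = ⟪v, D w⟫ := lap_symm hoR
  have hLs : ∀ v w : V, ⟪L v, w⟫ = ⟪v, L w⟫ := lap_symm hρ
  have hAD : Commute A D := commute_lap_lap
  have hLA : Commute L A := by
    rw [hA]; unfold lap
    refine Commute.smul_right ?_ _
    refine Commute.sum_right _ _ _ fun a _ => Commute.sum_right _ _ _ fun b _ => ?_
    exact (Commute.one_right _).sub_right (lap_comm ρ _)
  have hLD : Commute L D := by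
    rw [hD]; unfold lap
    refine Commute.smul_right ?_ _
    refine Commute.sum_right _ _ _ fun a _ => Commute.sum_right _ _ _ fun b _ => ?_
    exact (Commute.one_right _).sub_right (lap_comm ρ _)
  have hLG : Commute L G := by
    have : G = L - (A + D) := by rw [hsplit]; abel
    rw [this]
    exact (Commute.refl L).sub_right (hLA.add_right hLD)
  -- general tool: symmetric operators scaled
  have hsm : ∀ (T : V →L[ℝ] V) (r : ℝ), (∀ v w : V, ⟪T v, w⟫ = ⟪v, T w⟫) →
      ∀ v w : V, ⟪(r • T) v, w⟫ = ⟪v, (r • T) w⟫ := by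
    intro T r hT v w
    simp only [_root_.smul_apply, real_inner_smul_left, real_inner_smul_right, hT]
  have hneg : ∀ (T : V →L[ℝ] V) (r : ℝ), -(r • T) = (-r) • T := fun T r => (neg_smul r T).symm
  -- the projected vector
  set w := cmp ρ ∅ v with hw
  have hwinv : ∀ c : Y → Bool, ρ (flip c) w = w := by
    intro c; rw [hw, flip_cmp]; simp [sg]
  have hact : act ρ (dbl b) v = act ρL b (act ρR b w) := by
    rw [dbl, map_mul, map_mul, act_mapDomain, act_mapDomain, act_coinAvg]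
    rfl
  -- Step 1
  set EA := NormedSpace.exp ((1 / 2 : ℝ) • ((-c) • A)) with hEA
  set ED := NormedSpace.exp ((1 / 2 : ℝ) • ((-c) • D)) with hED
  have hEAR : Commute EA (act ρR b) := by
    refine commute_act ρR EA (fun g => ?_) b
    exact Commute.exp_left (((commute_lap_left g).smul_left _).smul_left _)
  have h1 : ‖act ρL b (act ρR b w)‖ ^ 2 ≤ ‖EA (act ρR b w)‖ ^ 2 := by
    have := hb V ρL hoL (act ρR b w)
    rw [hneg, inner_exp_eq (hsm A (-c) hAs)] at this
    exact this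
  have h2 : EA (act ρR b w) = act ρR b (EA w) := by
    have := congrArg (fun T : V →L[ℝ] V => T w) hEAR.eq
    simpa [mul_apply_eq_comp] using this
  have h3 : ‖act ρR b (EA w)‖ ^ 2 ≤ ‖ED (EA w)‖ ^ 2 := by
    have := hb V ρR hoR (EA w)
    rw [hneg, inner_exp_eq (hsm D (-c) hDs)] at this
    exact this
  have h4 : ED * EA = NormedSpace.exp ((1 / 2 : ℝ) • ((-c) • (A + D))) := by
    rw [hED, hEA, ← exp_add']
    · congr 1
      simp only [smul_add]
      abel
    · exact (((hAD.symm.smul_left _).smul_left _).smul_right _).smul_right _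
  have hADs : ∀ v w : V, ⟪(A + D) v, w⟫ = ⟪v, (A + D) w⟫ := by
    intro v w
    simp only [_root_.add_apply, inner_add_left, inner_add_right, hAs, hDs]
  have h5 : ‖ED (EA w)‖ ^ 2 = ⟪w, NormedSpace.exp ((-c) • (A + D)) w⟫ := by
    rw [inner_exp_eq (hsm (A + D) (-c) hADs), ← h4, mul_apply_eq_comp]
  -- Step 2
  set E1 := NormedSpace.exp ((1 / 2 : ℝ) • ((-c) • L)) with hE1
  have hE1s : ∀ v w : V, ⟪E1 v, w⟫ = ⟪v, E1 w⟫ := exp_symm (hsm _ _ (hsm L (-c) hLs))
  have h6 : NormedSpace.exp ((-c) • (A + D)) = E1 * (NormedSpace.exp (c • G) * E1) := by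
    have e : (-c) • (A + D) = ((1 / 2 : ℝ) • ((-c) • L)) + ((c • G) + ((1 / 2 : ℝ) • ((-c) • L))) := by
      have : A + D = L - G := by rw [hsplit]; abel
      rw [this]
      simp only [smul_sub, neg_smul, smul_neg]
      have : c • L = (1 / 2 : ℝ) • (c • L) + (1 / 2 : ℝ) • (c • L) := by
        rw [← add_smul]; norm_num
      nth_rewrite 1 [this]
      abel
    rw [e, exp_add', exp_add']
    · exact (((hLG.symm.smul_left _).smul_right _).smul_right _)
    · exact ((hLG.smul_left _).smul_left _).smul_right _ |>.add_right (Commute.refl _)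
  set u := E1 w with hu
  have huinv : ∀ c : Y → Bool, ρ (flip c) u = u := by
    intro c'
    have hcm : Commute E1 (ρ (flip c')) :=
      Commute.exp_left (((lap_comm ρ _).smul_left _).smul_left _)
    have := congrArg (fun T : V →L[ℝ] V => T w) hcm.eq
    simp only [mul_apply_eq_comp, hwinv] at this
    exact this.symm
  have h7 : ⟪w, NormedSpace.exp ((-c) • (A + D)) w⟫ = ⟪u, NormedSpace.exp (c • G) u⟫ := by
    rw [h6, mul_apply_eq_comp, mul_apply_eq_comp, ← hE1s]
  have h8 : ⟪u, NormedSpace.exp (c • G) u⟫ ≤ ‖u‖ ^ 2 + κ * ⟪u, L u⟫ :=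
    exp_Gop_le hρ huinv hc hc'
  have h9 : ‖u‖ ^ 2 + κ * ⟪u, L u⟫ ≤ ⟪u, NormedSpace.exp (κ • L) u⟫ :=
    one_add_le_exp hLs (inner_lap_nonneg hρ) hκ0 u
  have h10 : ⟪u, NormedSpace.exp (κ • L) u⟫ = ⟪w, NormedSpace.exp ((-(c - κ)) • L) w⟫ := by
    have e : (-(c - κ)) • L = ((1 / 2 : ℝ) • ((-c) • L)) + ((κ • L) + ((1 / 2 : ℝ) • ((-c) • L))) := by
      rw [smul_smul, ← add_smul, ← add_smul]
      congr 1; ring
    rw [e, exp_add', exp_add', mul_apply_eq_comp, mul_apply_eq_comp, hu, hE1s]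
    · exact (((Commute.refl L).smul_left _).smul_right _).smul_right _
    · exact ((((Commute.refl L).smul_left _).smul_left _).smul_right _).add_right (Commute.refl _)
  -- Step 3
  set F := NormedSpace.exp ((1 / 2 : ℝ) • ((-(c - κ)) • L)) with hF
  have h11 : ⟪w, NormedSpace.exp ((-(c - κ)) • L) w⟫ = ‖F w‖ ^ 2 :=
    inner_exp_eq (hsm L _ hLs) w
  have h12 : F w = cmp ρ ∅ (F v) := by
    have hcm : Commute F (act ρ (coinAvg Y)) := by
      refine commute_act ρ F (fun g => ?_) _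
      exact Commute.exp_left (((lap_comm ρ _).smul_left _).smul_left _)
    have := congrArg (fun T : V →L[ℝ] V => T v) hcm.eq
    simpa [mul_apply_eq_comp, act_coinAvg] using this
  have h13 : ⟪v, NormedSpace.exp (-((c - κ) • L)) v⟫ = ‖F v‖ ^ 2 := by
    rw [hneg]; exact inner_exp_eq (hsm L _ hLs) v
  rw [hact, h13]
  calc ‖act ρL b (act ρR b w)‖ ^ 2 ≤ ‖EA (act ρR b w)‖ ^ 2 := h1
    _ = ‖act ρR b (EA w)‖ ^ 2 := by rw [h2]
    _ ≤ ‖ED (EA w)‖ ^ 2 := h3
    _ = ⟪w, NormedSpace.exp ((-c) • (A + D)) w⟫ := h5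
    _ = ⟪u, NormedSpace.exp (c • G) u⟫ := h7
    _ ≤ ‖u‖ ^ 2 + κ * ⟪u, L u⟫ := h8
    _ ≤ ⟪u, NormedSpace.exp (κ • L) u⟫ := h9
    _ = ⟪w, NormedSpace.exp ((-(c - κ)) • L) w⟫ := h10
    _ = ‖F w‖ ^ 2 := h11
    _ = ‖cmp ρ ∅ (F v)‖ ^ 2 := by rw [h12]
    _ ≤ ‖F v‖ ^ 2 := norm_cmp_empty_le hρ _

end

end Vale.Agent.P162
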